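import Mathlib

/-!
# P114: the mass distribution principle

A set of positive measure at whose points the balls have mass at most `K r^s` has dimension at
least `s`.
-/

open MeasureTheory Metric Set
open scoped ENNReal NNReal

namespace Vale.Agent.P114.Meas

noncomputable section

variable {X : Type*} [PseudoMetricSpace X] [MeasurableSpace X]

/-- The part of a set of diameter `δ` meeting the good points. -/
theorem measure_inter_le (μ : Measure X) {E U : Set X} {K s r₀ : ℝ} 
    (hE : ∀ x ∈ E, ∀ r, 0 < r → r < r₀ → μ (ball x r) ≤ ENNReal.ofReal (K * r ^ s))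
    {δ : ℝ} (hδ : 0 < δ) (hδr : δ < r₀) (hU : ∀ x ∈ U, ∀ y ∈ U, dist x y < δ) :
    μ (U ∩ E) ≤ ENNReal.ofReal (K * δ ^ s) := by
  rcases (U ∩ E).eq_empty_or_nonempty with h | ⟨x, hxU, hxE⟩
  · simp [h]
  refine le_trans (measure_mono fun y hy => ?_) (hE x hxE δ hδ hδr)
  exact mem_ball.2 (hU y hy.1 x hxU)

/-- The mass distribution principle. -/
theorem le_dimH_of_ball_le {X : Type*} [MetricSpace X] [MeasurableSpace X] [BorelSpace X]
    (μ : Measure X) {E : Set X} (hEm : MeasurableSet E) (hpos : μ E ≠ 0)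
    {K s r₀ : ℝ} (hs : 0 < s) (hr₀ : 0 < r₀) (hK : 0 < K)
    (hE : ∀ x ∈ E, ∀ r, 0 < r → r < r₀ → μ (ball x r) ≤ ENNReal.ofReal (K * r ^ s)) :
    ENNReal.ofReal s ≤ dimH E := by
  set c : ℝ := K * 2 ^ s with hc
  have hcpos : 0 < c := by positivity
  have hle : (ENNReal.ofReal c)⁻¹ • μ.restrict E ≤ μH[s] := by
    refine Measure.le_hausdorffMeasure s _ (ENNReal.ofReal (r₀ / 3)) (by simp; linarith) fun U hU => ?_
    rw [Measure.smul_apply, Measure.restrict_apply' hEm, smul_eq_mul]
    have hU' : ∀ x ∈ U, ∀ y ∈ U, dist x y ≤ (ediam U).toReal := fun x hx y hy => by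
      rw [dist_edist]
      exact ENNReal.toReal_mono (ne_top_of_le_ne_top ENNReal.ofReal_ne_top hU)
        (Metric.edist_le_ediam_of_mem hx hy)
    have hd : (ediam U).toReal ≤ r₀ / 3 :=
      ENNReal.toReal_le_of_le_ofReal (by positivity) hU
    set d := (ediam U).toReal with hddef
    have hd0 : 0 ≤ d := ENNReal.toReal_nonneg
    rcases eq_or_lt_of_le hd0 with hd0' | hdpos
    · have h0 : μ (U ∩ E) = 0 := by
        refine le_antisymm ?_ zero_le
        refine le_of_tendsto_of_tendsto' (b := Filter.atTop) (f := fun _ : ℕ => μ (U ∩ E))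
          (g := fun n : ℕ => ENNReal.ofReal (K * (r₀ / (n + 2)) ^ s)) tendsto_const_nhds ?_ ?_
        · have h1 : Filter.Tendsto (fun n : ℕ => r₀ / ((n : ℝ) + 2)) Filter.atTop (nhds 0) :=
            tendsto_const_nhds.div_atTop
              (Filter.tendsto_atTop_add_const_right _ 2 tendsto_natCast_atTop_atTop)
          have h2 := ((h1.rpow_const (Or.inr hs.le)).const_mul K)
          rw [Real.zero_rpow hs.ne', mul_zero] at h2
          simpa using ENNReal.tendsto_ofReal h2
        · intro n
          refine measure_inter_le μ hE (by positivity) ?_ fun x hx y hy => ?_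
          · rw [div_lt_iff₀ (by positivity)]
            nlinarith [(Nat.cast_nonneg n : (0 : ℝ) ≤ n)]
          · exact lt_of_le_of_lt (hU' x hx y hy) (hd0' ▸ by positivity)
      simp [h0]
    · have h1 := measure_inter_le μ (U := U) hE (δ := 2 * d) (by positivity)
        (by linarith) fun x hx y hy => lt_of_le_of_lt (hU' x hx y hy) (by linarith)
      calc (ENNReal.ofReal c)⁻¹ * μ (U ∩ E)
          ≤ (ENNReal.ofReal c)⁻¹ * ENNReal.ofReal (K * (2 * d) ^ s) := mul_le_mul' le_rfl h1
        _ = ediam U ^ s := by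
          rw [Real.mul_rpow (by norm_num) hd0, ← mul_assoc, ← hc, ENNReal.ofReal_mul hcpos.le,
            ← mul_assoc, ENNReal.inv_mul_cancel (by simp [hcpos]) ENNReal.ofReal_ne_top, one_mul,
            ← ENNReal.ofReal_rpow_of_nonneg hd0 hs.le, hddef,
            ENNReal.ofReal_toReal (ne_top_of_le_ne_top ENNReal.ofReal_ne_top hU)]
  have hne : μH[s] E ≠ 0 := by
    intro h0
    have := hle E
    rw [h0, Measure.smul_apply, Measure.restrict_apply_self, smul_eq_mul] at this
    exact hpos ((mul_eq_zero.1 (le_antisymm this zero_le)).resolve_left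
      (ENNReal.inv_ne_zero.2 ENNReal.ofReal_ne_top))
  have hs' : ((s.toNNReal : ℝ≥0) : ℝ) = s := Real.coe_toNNReal _ hs.le
  exact le_dimH_of_hausdorffMeasure_ne_zero (d := s.toNNReal) (hs'.symm ▸ hne)

end

end Vale.Agent.P114.Meas
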