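import Vale.Agent.P114.Meas.Shift

/-!
# P114: the coding map and the branches of a self-similar measure

`X` is any measurable map with `X ω = r (ω 0) X (shift ω) + t (ω 0)`.
-/

open MeasureTheory ProbabilityTheory Set Filter Metric
open scoped ENNReal

namespace Vale.Agent.P114.Meas

noncomputable section

variable {ι : Type*} [MeasurableSpace ι] [MeasurableSingletonClass ι]
  (ν : Measure ι) [IsProbabilityMeasure ν]

/-- Prepending a letter. -/
def prepend (q : ι × (ℕ → ι)) : ℕ → ι
  | 0 => q.1
  | n + 1 => q.2 n

omit [MeasurableSingletonClass ι] in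
theorem measurable_prepend : Measurable (prepend : ι × (ℕ → ι) → ℕ → ι) :=
  measurable_pi_iff.2 fun n => match n with
    | 0 => measurable_fst
    | k + 1 => (measurable_pi_apply k).comp measurable_snd

omit [MeasurableSingletonClass ι] in
theorem map_prepend : (ν.prod (seqMeasure ν)).map prepend = seqMeasure ν := by
  classical
  refine Measure.eq_infinitePi (fun _ : ℕ => ν) fun s t ht => ?_
  set u : Set ι := if 0 ∈ s then t 0 else univ
  set s' := s.preimage Nat.succ (fun _ _ _ _ h => Nat.succ_injective h) with hs'
  have hmem : ∀ n, n ∈ s' ↔ n + 1 ∈ s := fun n => Finset.mem_preimage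
  have hpre : prepend ⁻¹' (Set.pi s t) =
      u ×ˢ (Set.pi (s' : Set ℕ) fun n => t (n + 1)) := by
    ext ⟨i, ω⟩
    simp only [mem_preimage, Set.mem_pi, mem_prod, Finset.mem_coe, hmem]
    constructor
    · intro h
      refine ⟨?_, fun n hn => h (n + 1) hn⟩
      by_cases h0 : 0 ∈ s
      · simpa [u, h0, prepend] using h 0 h0
      · simp [u, h0]
    · rintro ⟨h0, h1⟩ n hn
      cases n with
      | zero => simpa [u, hn, prepend] using h0
      | succ n => exact h1 n hn
  rw [Measure.map_apply measurable_prepend (.pi s.countable_toSet fun n _ => ht n), hpre,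
    Measure.prod_prod, seqMeasure, Measure.infinitePi_pi _ fun n _ => ht (n + 1)]
  have hsplit : s.erase 0 = s'.image Nat.succ := by
    ext n
    simp only [Finset.mem_erase, Finset.mem_image, hmem]
    constructor
    · rintro ⟨h0, hn⟩
      exact ⟨n - 1, by rwa [show n - 1 + 1 = n by omega], by omega⟩
    · rintro ⟨m, hm, rfl⟩
      exact ⟨Nat.succ_ne_zero m, hm⟩
  have himg : ∏ n ∈ s', ν (t (n + 1)) = ∏ n ∈ s.erase 0, ν (t n) := by
    rw [hsplit, Finset.prod_image fun a _ b _ h => Nat.succ_injective h]
  rw [himg]
  by_cases h0 : 0 ∈ s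
  · rw [← Finset.mul_prod_erase s _ h0]
    simp [u, h0]
  · rw [Finset.erase_eq_of_notMem h0]
    simp [u, h0]

theorem measurableSet_first (i : ι) : MeasurableSet {ω : ℕ → ι | ω 0 = i} :=
  (measurable_pi_apply (X := fun _ : ℕ => ι) 0) (measurableSet_singleton i)

/-- The first letter and the rest are independent. -/
theorem measure_first_inter (i : ι) {A : Set (ℕ → ι)} (hA : MeasurableSet A) :
    seqMeasure ν ({ω | ω 0 = i} ∩ shift ⁻¹' A) = ν {i} * seqMeasure ν A := by
  have hm : MeasurableSet ({ω : ℕ → ι | ω 0 = i} ∩ shift ⁻¹' A) :=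
    (measurableSet_first i).inter (measurable_shift hA)
  conv_lhs => rw [← map_prepend ν]
  rw [Measure.map_apply measurable_prepend hm, ← Measure.prod_prod]
  congr 1

variable (X : (ℕ → ι) → ℝ)

/-- The law of the coding map. -/
def law : Measure ℝ := (seqMeasure ν).map X

/-- The part of the law coming from the first letter `i`. -/
def branch (i : ι) : Measure ℝ := ((seqMeasure ν).restrict {ω | ω 0 = i}).map X

omit [MeasurableSingletonClass ι] in
instance : IsFiniteMeasure (law ν X) := by
  unfold law
  infer_instance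

omit [MeasurableSingletonClass ι] in
instance (i : ι) : IsFiniteMeasure (branch ν X i) := by
  unfold branch
  infer_instance

variable {X} (hXm : Measurable X)
include hXm

omit [MeasurableSingletonClass ι] [IsProbabilityMeasure ν] in
theorem branch_le (i : ι) : branch ν X i ≤ law ν X :=
  Measure.map_mono Measure.restrict_le_self hXm

omit [MeasurableSingletonClass ι] [IsProbabilityMeasure ν] in
theorem branch_apply (i : ι) {B : Set ℝ} (hB : MeasurableSet B) :
    branch ν X i B = seqMeasure ν ({ω | ω 0 = i} ∩ X ⁻¹' B) := by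
  rw [branch, Measure.map_apply hXm hB, Measure.restrict_apply (hXm hB), inter_comm]

theorem law_eq_sum [Fintype ι] : law ν X = ∑ i, branch ν X i := by
  refine Measure.ext fun B hB => ?_
  rw [Measure.finsetSum_apply, law, Measure.map_apply hXm hB]
  simp only [branch_apply ν hXm _ hB]
  rw [← measure_biUnion_finset]
  · congr 1
    ext ω
    simp
  · exact fun a _ b _ hab => Set.disjoint_left.2 fun ω ha hb => hab (ha.1.symm.trans hb.1)
  · exact fun i _ => (measurableSet_first i).inter (hXm hB)

/-- Self-similarity on balls. -/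
theorem branch_ball {r t : ι → ℝ} (hX : ∀ ω, X ω = r (ω 0) * X (shift ω) + t (ω 0))
    (i : ι) (hri : r i ≠ 0) (x ρ : ℝ) :
    branch ν X i (ball (r i * x + t i) (|r i| * ρ)) = ν {i} * law ν X (ball x ρ) := by
  rw [branch_apply ν hXm i measurableSet_ball, law, Measure.map_apply hXm measurableSet_ball,
    ← measure_first_inter ν i (hXm measurableSet_ball)]
  congr 1
  ext ω
  simp only [mem_inter_iff, Set.mem_ofPred_eq, mem_preimage, mem_ball, Real.dist_eq]
  refine and_congr_right fun h0 => ?_
  rw [hX ω, h0, show r i * X (shift ω) + t i - (r i * x + t i) = r i * (X (shift ω) - x) by ring,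
    abs_mul, mul_lt_mul_iff_right₀ (abs_pos.2 hri)]

end

end Vale.Agent.P114.Meas
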