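import Vale.Agent.P114.Meas.Branch

/-!
# P114: the coding map, and uniqueness of the invariant measure

`coding r t ω = ∑ n, (∏_{i<n} r (ω i)) t (ω n)`; its law is the only probability measure `m` with
`m = ∑ i, ν{i} • (x ↦ r i x + t i)_* m`.
-/

open MeasureTheory ProbabilityTheory Set Filter
open scoped ENNReal Topology BoundedContinuousFunction

namespace Vale.Agent.P114.Meas

noncomputable section

variable {ι : Type*} [Fintype ι] (r t : ι → ℝ)

/-- The slope of the first `n` letters. -/
def slope (ω : ℕ → ι) (n : ℕ) : ℝ := ∏ i ∈ Finset.range n, r (ω i)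

/-- The translation of the first `n` letters. -/
def trans (ω : ℕ → ι) (n : ℕ) : ℝ := ∑ j ∈ Finset.range n, slope r ω j * t (ω j)

/-- The coding map. -/
def coding (ω : ℕ → ι) : ℝ := ∑' n, slope r ω n * t (ω n)

omit [Fintype ι] in
theorem slope_succ (ω : ℕ → ι) (n : ℕ) :
    slope r ω (n + 1) = r (ω 0) * slope r (shift ω) n := by
  simp only [slope, Finset.prod_range_succ', shift]
  ring

variable {r} (hr1 : ∀ i, |r i| < 1)
include hr1

theorem exists_ratio_bound : ∃ c : ℝ, 0 ≤ c ∧ c < 1 ∧ ∀ i, |r i| ≤ c := by
  rcases isEmpty_or_nonempty ι with h | h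
  · exact ⟨0, le_rfl, one_pos, fun i => h.elim i⟩
  · obtain ⟨i, -, hi⟩ := Finset.exists_max_image Finset.univ (fun i => |r i|) Finset.univ_nonempty
    exact ⟨|r i|, abs_nonneg _, hr1 i, fun j => hi j (Finset.mem_univ _)⟩

theorem summable_coding (ω : ℕ → ι) : Summable fun n => slope r ω n * t (ω n) := by
  obtain ⟨c, hc0, hc1, hc⟩ := exists_ratio_bound hr1
  refine Summable.of_norm_bounded (g := fun n => c ^ n * ∑ i, |t i|)
    ((summable_geometric_of_lt_one hc0 hc1).mul_right _) fun n => ?_
  rw [Real.norm_eq_abs, abs_mul, slope, Finset.abs_prod]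
  refine mul_le_mul ?_ (Finset.single_le_sum (f := fun i => |t i|) (fun i _ => abs_nonneg _)
    (Finset.mem_univ _)) (abs_nonneg _) (pow_nonneg hc0 _)
  calc ∏ i ∈ Finset.range n, |r (ω i)| ≤ ∏ _i ∈ Finset.range n, c :=
        Finset.prod_le_prod (fun i _ => abs_nonneg _) fun i _ => hc _
    _ = c ^ n := by simp

/-- The coding map is equivariant. -/
theorem coding_eq (ω : ℕ → ι) :
    coding r t ω = r (ω 0) * coding r t (shift ω) + t (ω 0) := by
  have h : ∑' n, slope r ω n * t (ω n) =
      slope r ω 0 * t (ω 0) + ∑' n, slope r ω (n + 1) * t (ω (n + 1)) :=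
    (summable_coding t hr1 ω).tsum_eq_zero_add
  have h2 : ∀ n, slope r ω (n + 1) * t (ω (n + 1)) =
      r (ω 0) * (slope r (shift ω) n * t (shift ω n)) := fun n => by
    rw [slope_succ, mul_assoc]
    rfl
  rw [coding, h, tsum_congr h2, tsum_mul_left, coding, slope, Finset.range_zero, Finset.prod_empty]
  ring

theorem tendsto_slope (ω : ℕ → ι) : Tendsto (slope r ω) atTop (𝓝 0) := by
  obtain ⟨c, hc0, hc1, hc⟩ := exists_ratio_bound hr1
  refine squeeze_zero_norm (a := fun n => c ^ n) (fun n => ?_)
    (tendsto_pow_atTop_nhds_zero_of_lt_one hc0 hc1)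
  rw [Real.norm_eq_abs, slope, Finset.abs_prod]
  calc ∏ i ∈ Finset.range n, |r (ω i)| ≤ ∏ _i ∈ Finset.range n, c :=
        Finset.prod_le_prod (fun i _ => abs_nonneg _) fun i _ => hc _
    _ = c ^ n := by simp

variable [MeasurableSpace ι] [MeasurableSingletonClass ι]

omit hr1 in
theorem measurable_slope (n : ℕ) : Measurable fun ω => slope r ω n :=
  Finset.measurable_prod _ fun i _ => (measurable_of_countable r).comp (measurable_pi_apply i)

omit hr1 in
theorem measurable_trans (n : ℕ) : Measurable fun ω => trans r t ω n :=
  Finset.measurable_sum _ fun j _ =>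
    (measurable_slope j).mul ((measurable_of_countable t).comp (measurable_pi_apply j))

theorem measurable_coding : Measurable (coding r t) :=
  measurable_of_tendsto_metrizable (measurable_trans t) (tendsto_pi_nhds.2 fun ω =>
    (summable_coding t hr1 ω).hasSum.tendsto_sum_nat)

variable (ν : Measure ι) [IsProbabilityMeasure ν]

/-- An invariant probability measure is reproduced by the level-`n` maps. -/
theorem map_level {m : Measure ℝ} [IsProbabilityMeasure m]
    (hm : m = ∑ i, ν {i} • m.map (fun x => r i * x + t i)) (n : ℕ) :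
    ((seqMeasure ν).prod m).map (fun q => trans r t q.1 n + slope r q.1 n * q.2) = m := by
  induction n with
  | zero => simp [trans, slope, Measure.map_snd_prod]
  | succ n ih =>
    have hmeas : ∀ k, Measurable fun q : (ℕ → ι) × ℝ => trans r t q.1 k + slope r q.1 k * q.2 :=
      fun k => ((measurable_trans t k).comp measurable_fst).add
        (((measurable_slope k).comp measurable_fst).mul measurable_snd)
    have hφ : ∀ i : ι, Measurable fun x => r i * x + t i := fun i => by fun_prop
    refine Measure.ext fun B hB => ?_
    rw [Measure.map_apply (hmeas _) hB, Measure.prod_apply (hmeas _ hB)]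
    conv_lhs => rw [← map_prepend ν]
    rw [lintegral_map (measurable_measure_prodMk_left (hmeas _ hB)) measurable_prepend,
      lintegral_prod (fun x => m (Prod.mk (prepend x) ⁻¹' ((fun q : (ℕ → ι) × ℝ =>
        trans r t q.1 (n + 1) + slope r q.1 (n + 1) * q.2) ⁻¹' B)))
        ((measurable_measure_prodMk_left (hmeas _ hB)).comp measurable_prepend).aemeasurable,
      lintegral_fintype]
    conv_rhs => rw [hm]
    rw [Measure.finsetSum_apply]
    refine Finset.sum_congr rfl fun i _ => ?_
    rw [Measure.smul_apply, smul_eq_mul, mul_comm]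
    congr 1
    conv_rhs => rw [Measure.map_apply (hφ i) hB, ← ih,
      Measure.map_apply (hmeas _) (hφ i hB), Measure.prod_apply (hmeas _ (hφ i hB))]
    refine lintegral_congr fun ω => congrArg m ?_
    ext y
    simp only [mem_preimage]
    have hs : shift (prepend (i, ω)) = ω := rfl
    have htr : trans r t (prepend (i, ω)) (n + 1) = r i * trans r t ω n + t i := by
      simp only [trans, Finset.sum_range_succ', slope_succ, hs, Finset.mul_sum]
      refine congrArg₂ (· + ·) (Finset.sum_congr rfl fun j _ => ?_) ?_
      · show r i * slope r ω j * t (ω j) = _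
        ring
      · simp [slope, prepend]
    rw [htr, slope_succ, hs]
    show r i * trans r t ω n + t i + r i * slope r ω n * y ∈ B ↔ _
    rw [show r i * trans r t ω n + t i + r i * slope r ω n * y =
      r i * (trans r t ω n + slope r ω n * y) + t i by ring]

/-- Uniqueness of the invariant probability measure. -/
theorem eq_law {m : Measure ℝ} [IsProbabilityMeasure m]
    (hm : m = ∑ i, ν {i} • m.map (fun x => r i * x + t i)) :
    m = law ν (coding r t) := by
  haveI : IsProbabilityMeasure (law ν (coding r t)) :=
    Measure.isProbabilityMeasure_map (measurable_coding t hr1).aemeasurable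
  refine ext_of_forall_integral_eq_of_IsFiniteMeasure fun g => ?_
  have hmeas : ∀ k, Measurable fun q : (ℕ → ι) × ℝ => trans r t q.1 k + slope r q.1 k * q.2 :=
    fun k => ((measurable_trans t k).comp measurable_fst).add
      (((measurable_slope k).comp measurable_fst).mul measurable_snd)
  have hn : ∀ k, ∫ x, g x ∂m =
      ∫ q, g (trans r t q.1 k + slope r q.1 k * q.2) ∂(seqMeasure ν).prod m := fun k => by
    conv_lhs => rw [← map_level t hr1 ν hm k]
    rw [integral_map (hmeas k).aemeasurable g.continuous.aestronglyMeasurable]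
  have hlim : Tendsto (fun k => ∫ q, g (trans r t q.1 k + slope r q.1 k * q.2)
      ∂(seqMeasure ν).prod m) atTop (𝓝 (∫ q, g (coding r t q.1) ∂(seqMeasure ν).prod m)) := by
    refine tendsto_integral_of_dominated_convergence (fun _ => ‖g‖)
      (fun k => (g.continuous.measurable.comp (hmeas k)).aestronglyMeasurable)
      (integrable_const _) (fun k => Eventually.of_forall fun q => g.norm_coe_le_norm _)
      (Eventually.of_forall fun q => (g.continuous.tendsto _).comp ?_)
    have h1 := (summable_coding t hr1 q.1).hasSum.tendsto_sum_nat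
    have h2 := (tendsto_slope hr1 q.1).mul_const q.2
    simpa [trans, coding] using h1.add h2
  have hfin : ∫ q, g (coding r t q.1) ∂(seqMeasure ν).prod m =
      ∫ x, g x ∂law ν (coding r t) := by
    rw [law, integral_map (measurable_coding t hr1).aemeasurable
      g.continuous.aestronglyMeasurable]
    rw [integral_fun_fst (μ := seqMeasure ν) (ν := m) fun ω => g (coding r t ω)]
    simp
  exact tendsto_nhds_unique (tendsto_const_nhds.congr fun k => hn k) (hfin ▸ hlim)

/-- The law of the coding map is invariant. -/
theorem law_coding_invariant :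
    law ν (coding r t) = ∑ i, ν {i} • (law ν (coding r t)).map (fun x => r i * x + t i) := by
  have hm := measurable_coding t hr1
  refine Measure.ext fun B hB => ?_
  rw [Measure.finsetSum_apply, law_eq_sum ν hm, Measure.finsetSum_apply]
  refine Finset.sum_congr rfl fun i _ => ?_
  rw [Measure.smul_apply, smul_eq_mul, ← law_eq_sum ν hm,
    Measure.map_apply (by fun_prop : Measurable fun x => r i * x + t i) hB, law,
    Measure.map_apply hm ((by fun_prop : Measurable fun x => r i * x + t i) hB),
    branch_apply ν hm i hB,
    ← measure_first_inter ν i (hm ((by fun_prop : Measurable fun x => r i * x + t i) hB))]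
  congr 1
  ext ω
  simp only [mem_inter_iff, Set.mem_ofPred_eq, mem_preimage]
  exact and_congr_right fun h0 => by rw [coding_eq t hr1 ω, h0]

end

end Vale.Agent.P114.Meas
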