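import Mathlib

/-!
# P114: the covering lemma and the maximal inequality on the line

A finite family of intervals has a subfamily with the same union in which every point lies in at
most two intervals. Hence, for finite measures `μ`, `ν`, the `ν`-measure of the points having some
ball with `ν(ball) ≤ t μ(ball)` is at most `2 t μ(ℝ)`.
-/

open MeasureTheory Metric Set
open scoped ENNReal

namespace Vale.Agent.P114.Meas

noncomputable section

theorem exists_subfamily_two (s : Finset (ℝ × ℝ)) :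
    ∃ u ⊆ s, (⋃ p ∈ u, Ioo p.1 p.2) = (⋃ p ∈ s, Ioo p.1 p.2) ∧
      ∀ x : ℝ, (u.filter fun p => x ∈ Ioo p.1 p.2).card ≤ 2 := by
  classical
  induction s using Finset.strongInduction with
  | H s ih =>
    by_cases hmax : ∀ x : ℝ, (s.filter fun p => x ∈ Ioo p.1 p.2).card ≤ 2
    · exact ⟨s, subset_rfl, rfl, hmax⟩
    push Not at hmax
    obtain ⟨x, hx⟩ := hmax
    set F := s.filter fun p => x ∈ Ioo p.1 p.2 with hF
    have hne : F.Nonempty := Finset.card_pos.1 (by omega)
    obtain ⟨a, ha, hamin⟩ := F.exists_min_image (fun p => p.1) hne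
    obtain ⟨b, hb, hbmax⟩ := F.exists_max_image (fun p => p.2) hne
    obtain ⟨c, hc, hca, hcb⟩ : ∃ c ∈ F, c ≠ a ∧ c ≠ b := by
      by_contra! h
      have hsub : F ⊆ {a, b} := fun c hc => by
        by_cases hca : c = a
        · simp [hca]
        · simp [h c hc hca]
      have := (Finset.card_le_card hsub).trans Finset.card_le_two
      omega
    have hcs : c ∈ s := (Finset.mem_filter.1 hc).1
    obtain ⟨u, hu, hU, hcard⟩ := ih (s.erase c) (Finset.erase_ssubset hcs)
    refine ⟨u, hu.trans (Finset.erase_subset _ _), ?_, hcard⟩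
    rw [hU]
    refine subset_antisymm
      (biUnion_subset_biUnion_left (Finset.coe_subset.2 (Finset.erase_subset _ _))) ?_
    intro y hy
    simp only [mem_iUnion, exists_prop] at hy ⊢
    obtain ⟨p, hp, hyp⟩ := hy
    by_cases hpc : p = c
    · subst hpc
      have hax := (Finset.mem_filter.1 ha).2
      have hbx := (Finset.mem_filter.1 hb).2
      have hay := hamin p hc
      have hby := hbmax p hc
      rcases le_or_gt y x with h | h
      · exact ⟨a, Finset.mem_erase.2 ⟨fun e => hca e.symm, (Finset.mem_filter.1 ha).1⟩,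
          ⟨lt_of_le_of_lt hay hyp.1, lt_of_le_of_lt h hax.2⟩⟩
      · exact ⟨b, Finset.mem_erase.2 ⟨fun e => hcb e.symm, (Finset.mem_filter.1 hb).1⟩,
          ⟨hbx.1.trans h, lt_of_lt_of_le hyp.2 hby⟩⟩
    · exact ⟨p, Finset.mem_erase.2 ⟨hpc, hp⟩, hyp⟩

/-- Maximal inequality for a finite family of intervals. -/
theorem measure_biUnion_le (μ ν : Measure ℝ) (t : ℝ≥0∞) (s : Finset (ℝ × ℝ))
    (h : ∀ p ∈ s, ν (Ioo p.1 p.2) ≤ t * μ (Ioo p.1 p.2)) :
    ν (⋃ p ∈ s, Ioo p.1 p.2) ≤ 2 * t * μ univ := by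
  classical
  obtain ⟨u, hus, hU, hcard⟩ := exists_subfamily_two s
  rw [← hU]
  have hsum : ∑ p ∈ u, μ (Ioo p.1 p.2) ≤ 2 * μ univ := by
    calc ∑ p ∈ u, μ (Ioo p.1 p.2)
        = ∑ p ∈ u, ∫⁻ x, (Ioo p.1 p.2).indicator 1 x ∂μ := by
          simp [lintegral_indicator_one measurableSet_Ioo]
      _ = ∫⁻ x, ∑ p ∈ u, (Ioo p.1 p.2).indicator 1 x ∂μ :=
          (lintegral_finsetSum _ fun p _ => measurable_one.indicator measurableSet_Ioo).symm
      _ ≤ ∫⁻ _, 2 ∂μ := lintegral_mono fun x => by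
          simp only [Set.indicator_apply, Pi.one_apply, Finset.sum_boole]
          exact_mod_cast hcard x
      _ = 2 * μ univ := lintegral_const _
  calc ν (⋃ p ∈ u, Ioo p.1 p.2) ≤ ∑ p ∈ u, ν (Ioo p.1 p.2) := measure_biUnion_finset_le _ _
    _ ≤ ∑ p ∈ u, t * μ (Ioo p.1 p.2) := Finset.sum_le_sum fun p hp => h p (hus hp)
    _ = t * ∑ p ∈ u, μ (Ioo p.1 p.2) := by rw [Finset.mul_sum]
    _ ≤ t * (2 * μ univ) := mul_le_mul' le_rfl hsum
    _ = 2 * t * μ univ := by ring

/-- The set of points with some ball on which `ν ≤ t μ`. -/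
def smallRatio (μ ν : Measure ℝ) (t : ℝ≥0∞) : Set ℝ :=
  {x | ∃ r : ℝ, 0 < r ∧ ν (ball x r) ≤ t * μ (ball x r)}

theorem measure_smallRatio_le (μ ν : Measure ℝ) (t : ℝ≥0∞) :
    ν (smallRatio μ ν t) ≤ 2 * t * μ univ := by
  classical
  set P : Set (ℝ × ℝ) := {p | ν (Ioo p.1 p.2) ≤ t * μ (Ioo p.1 p.2)} with hP
  obtain ⟨T, hTP, hTc, hTU⟩ := TopologicalSpace.isOpen_biUnion_countable P
    (fun p => Ioo p.1 p.2) fun p _ => isOpen_Ioo
  have hsub : smallRatio μ ν t ⊆ ⋃ p ∈ T, Ioo p.1 p.2 := by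
    rintro x ⟨r, hr, hle⟩
    rw [hTU]
    rw [Real.ball_eq_Ioo] at hle
    exact mem_biUnion (show (x - r, x + r) ∈ P from hle) ⟨by linarith, by linarith⟩
  refine (measure_mono hsub).trans ?_
  rcases T.eq_empty_or_nonempty with hT | hT
  · simp [hT]
  obtain ⟨e, he⟩ := hTc.exists_eq_range hT
  rw [he, biUnion_range]
  have hmono : Monotone fun n : ℕ => ⋃ p ∈ (Finset.range n).image e, Ioo p.1 p.2 := fun a b hab =>
    biUnion_subset_biUnion_left
      (Finset.coe_subset.2 (Finset.image_subset_image (Finset.range_mono hab)))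
  have hun : (⋃ i : ℕ, Ioo (e i).1 (e i).2) =
      ⋃ n : ℕ, ⋃ p ∈ (Finset.range n).image e, Ioo p.1 p.2 := by
    ext y
    simp only [mem_iUnion, Finset.mem_image, Finset.mem_range, exists_prop]
    constructor
    · rintro ⟨i, hi⟩
      exact ⟨i + 1, e i, ⟨i, Nat.lt_succ_self i, rfl⟩, hi⟩
    · rintro ⟨n, p, ⟨i, -, rfl⟩, hp⟩
      exact ⟨i, hp⟩
  rw [hun, hmono.measure_iUnion]
  refine iSup_le fun n => measure_biUnion_le μ ν t _ fun p hp => ?_
  obtain ⟨i, -, rfl⟩ := Finset.mem_image.1 hp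
  exact hTP (he ▸ mem_range_self i)

end

end Vale.Agent.P114.Meas
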