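import Mathlib

/-!
# P114: the maximal ergodic inequality, positive-set form

If `∫ f > 0`, then with positive probability all ergodic sums of `f` are nonnegative.
-/

open MeasureTheory Filter Finset
open scoped Topology

namespace Vale.Agent.P114.Meas

noncomputable section

variable {Ω : Type*} [MeasurableSpace Ω] {μ : Measure Ω} {T : Ω → Ω}

/-- Largest sum `-S_k f` over `k ≤ n`, defined by recursion. -/
def worst (T : Ω → Ω) (f : Ω → ℝ) : ℕ → Ω → ℝ
  | 0, _ => 0
  | n + 1, x => max 0 (-f x + worst T f n (T x))

theorem worst_nonneg (f : Ω → ℝ) : ∀ n x, 0 ≤ worst T f n x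
  | 0, _ => le_refl _
  | _ + 1, _ => le_max_left _ _

theorem worst_mono (f : Ω → ℝ) : ∀ n x, worst T f n x ≤ worst T f (n + 1) x
  | 0, x => worst_nonneg f 1 x
  | n + 1, x => by
    have := worst_mono f n (T x)
    exact max_le_max le_rfl (by linarith)

theorem neg_sum_le_worst (f : Ω → ℝ) :
    ∀ n x, -∑ j ∈ range n, f (T^[j] x) ≤ worst T f n x
  | 0, x => by simp [worst]
  | n + 1, x => by
    rw [sum_range_succ']
    simp only [Function.iterate_succ_apply, Function.iterate_zero, id_eq]
    have h := neg_sum_le_worst f n (T x)
    have : -f x + worst T f n (T x) ≤ worst T f (n + 1) x := le_max_right _ _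
    linarith

theorem worst_step (f : Ω → ℝ) (n : ℕ) (x : Ω) (h : 0 < worst T f (n + 1) x) :
    worst T f (n + 1) x ≤ -f x + worst T f (n + 1) (T x) := by
  have h1 := worst_mono (T := T) f n (T x)
  have h2 : worst T f (n + 1) x = max 0 (-f x + worst T f n (T x)) := rfl
  rcases le_or_gt (-f x + worst T f n (T x)) 0 with h3 | h3
  · rw [h2, max_eq_left h3] at h
    exact absurd h (lt_irrefl _)
  · rw [h2, max_eq_right h3.le]
    linarith

variable [IsFiniteMeasure μ]

theorem integrable_worst (hT : MeasurePreserving T μ μ) {f : Ω → ℝ} (hf : Integrable f μ) :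
    ∀ n, Integrable (worst T f n) μ
  | 0 => integrable_zero _ _ _
  | n + 1 => (integrable_zero _ _ _).sup
      (hf.neg.add (hT.integrable_comp_of_integrable (integrable_worst hT hf n)))

theorem maximal_le (hT : MeasurePreserving T μ μ) {f : Ω → ℝ} (hfm : Measurable f)
    (hf : Integrable f μ) (n : ℕ) :
    ∫ x in {x | 0 < worst T f (n + 1) x}, f x ∂μ ≤ 0 := by
  set M := worst T f (n + 1) with hMdef
  have hmeas : ∀ k, Measurable (worst T f k) := fun k => by
    induction k with
    | zero => exact measurable_const
    | succ k ih => exact measurable_const.max (hfm.neg.add (ih.comp hT.measurable))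
  have hM : Measurable M := hmeas _
  have hiM : Integrable M μ := integrable_worst hT hf _
  have hiMT : Integrable (fun x => M (T x)) μ := hT.integrable_comp_of_integrable hiM
  have hS : MeasurableSet {x | 0 < M x} := measurableSet_lt measurable_const hM
  have hmap : ∫ x, M (T x) ∂μ = ∫ x, M x ∂μ := by
    conv_rhs => rw [← hT.map_eq, integral_map hT.measurable.aemeasurable hM.aestronglyMeasurable]
  rw [← integral_indicator hS]
  calc ∫ x, {x | 0 < M x}.indicator f x ∂μ ≤ ∫ x, (M (T x) - M x) ∂μ := by
        refine integral_mono (hf.indicator hS) (hiMT.sub hiM) fun x => ?_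
        by_cases hx : 0 < M x
        · rw [Set.indicator_of_mem (show x ∈ {x | 0 < M x} from hx)]
          have : M x ≤ -f x + M (T x) := worst_step f n x hx
          linarith
        · rw [Set.indicator_of_notMem (show x ∉ {x | 0 < M x} from hx)]
          have h1 : 0 ≤ M (T x) := worst_nonneg f _ (T x)
          linarith [not_lt.1 hx]
    _ = 0 := by rw [integral_sub hiMT hiM, hmap, sub_self]

/-- If the mean is positive, all partial sums are nonnegative on a set of positive measure. -/
theorem exists_all_sums_nonneg (hT : MeasurePreserving T μ μ) {f : Ω → ℝ} (hfm : Measurable f)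
    (hf : Integrable f μ) (hpos : 0 < ∫ x, f x ∂μ) :
    0 < μ {x | ∀ n, 0 ≤ ∑ j ∈ range n, f (T^[j] x)} := by
  refine pos_iff_ne_zero.2 fun h0 => ?_
  set A : ℕ → Set Ω := fun n => {x | 0 < worst T f (n + 1) x}
  have hA : ∀ᵐ x ∂μ, Tendsto (fun n => (A n).indicator f x) atTop (𝓝 (f x)) := by
    filter_upwards [measure_eq_zero_iff_ae_notMem.1 h0] with x hx
    have hx' : ∃ n, ∑ j ∈ range n, f (T^[j] x) < 0 := by
      simpa only [Set.mem_ofPred_eq, not_forall, not_le] using hx
    obtain ⟨m, hm⟩ := hx'
    refine tendsto_atTop_of_eventually_const (i₀ := m) fun n hn => ?_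
    have hmono : Monotone fun k => worst T f k x := monotone_nat_of_le_succ fun k => worst_mono f k x
    have h1 : worst T f m x ≤ worst T f (n + 1) x := hmono (Nat.le_succ_of_le hn)
    have h2 := neg_sum_le_worst (T := T) f m x
    exact Set.indicator_of_mem (show x ∈ A n from show 0 < worst T f (n + 1) x by linarith) f
  have hmeas : ∀ k, Measurable (worst T f k) := fun k => by
    induction k with
    | zero => exact measurable_const
    | succ k ih => exact measurable_const.max (hfm.neg.add (ih.comp hT.measurable))
  have hlim : Tendsto (fun n => ∫ x, (A n).indicator f x ∂μ) atTop (𝓝 (∫ x, f x ∂μ)) :=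
    tendsto_integral_of_dominated_convergence (fun x => ‖f x‖)
      (fun n => (hfm.indicator (measurableSet_lt measurable_const (hmeas _))).aestronglyMeasurable)
      hf.norm (fun n => Eventually.of_forall fun x => norm_indicator_le_norm_self f x) hA
  have hle : ∫ x, f x ∂μ ≤ 0 := by
    refine le_of_tendsto hlim (Eventually.of_forall fun n => ?_)
    rw [integral_indicator (measurableSet_lt measurable_const (hmeas _))]
    exact maximal_le hT hfm hf n
  linarith

end

end Vale.Agent.P114.Meas
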