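import Vale.Agent.P114.Meas.Ratio
import Vale.Agent.P114.Meas.Hopf
import Vale.Agent.P114.Meas.Mass

/-!
# P114: the lower local dimension of a self-similar measure

With `rate = E log (density / p)` and `chi = E (-log |r|)` (natural logarithms), the law of the
coding map has balls of mass at most `K ρ^s` at almost every point whenever `s chi < rate`. Hence
sets of positive measure have dimension at least `s`.
-/

open MeasureTheory ProbabilityTheory Set Filter Metric
open scoped ENNReal Topology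

namespace Vale.Agent.P114.Meas

noncomputable section

variable {ι : Type*} [Fintype ι] [MeasurableSpace ι] [MeasurableSingletonClass ι]
  (ν : Measure ι) [IsProbabilityMeasure ν]

/-- The weight of a letter. -/
def weight (i : ι) : ℝ := (ν {i}).toReal

/-- The dimension rate, in nats. -/
def rate (X : (ℕ → ι) → ℝ) : ℝ :=
  ∫ ω, Real.log ((density ν X ω).toReal / weight ν (ω 0)) ∂seqMeasure ν

/-- The Lyapunov exponent, in nats. -/
def expo (r : ι → ℝ) : ℝ := ∫ ω, -Real.log |r (ω 0)| ∂seqMeasure ν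

/-- The gain of one letter at scales below `1/(k+1)`. -/
def gain (X : (ℕ → ι) → ℝ) (k : ℕ) (ω : ℕ → ι) : ℝ :=
  Real.log (infRatio ν X k ω).toReal - Real.log (weight ν (ω 0))

omit [Fintype ι] [IsProbabilityMeasure ν] in
theorem measurable_first (g : ι → ℝ) [Countable ι] :
    Measurable fun ω : ℕ → ι => g (ω 0) :=
  (measurable_of_countable g).comp (measurable_pi_apply 0)

theorem integrable_first (g : ι → ℝ) : Integrable (fun ω : ℕ → ι => g (ω 0)) (seqMeasure ν) :=
  Integrable.of_bound (measurable_first g).aestronglyMeasurable (∑ i, |g i|)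
    (Eventually.of_forall fun ω => by
      rw [Real.norm_eq_abs]
      exact Finset.single_le_sum (f := fun i => |g i|) (fun i _ => abs_nonneg _)
        (Finset.mem_univ _))

variable {X : (ℕ → ι) → ℝ} (hXm : Measurable X)
include hXm

omit [MeasurableSingletonClass ι] in
theorem abs_log_infRatio_le {k : ℕ} {ω : ℕ → ι} (h : 0 < infRatio ν X 0 ω) :
    |Real.log (infRatio ν X k ω).toReal| ≤ |Real.log (infRatio ν X 0 ω).toReal| := by
  have h1 : infRatio ν X k ω ≠ ⊤ := ne_top_of_le_ne_top ENNReal.one_ne_top (infRatio_le_one ν hXm k ω)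
  have h0 : 0 < (infRatio ν X 0 ω).toReal :=
    ENNReal.toReal_pos h.ne' (ne_top_of_le_ne_top ENNReal.one_ne_top (infRatio_le_one ν hXm 0 ω))
  have hle : (infRatio ν X 0 ω).toReal ≤ (infRatio ν X k ω).toReal :=
    ENNReal.toReal_mono h1 (infRatio_mono ν (Nat.zero_le k) ω)
  have hle1 : (infRatio ν X k ω).toReal ≤ 1 :=
    ENNReal.toReal_le_of_le_ofReal zero_le_one (by simpa using infRatio_le_one ν hXm k ω)
  have := Real.log_le_log h0 hle
  have h2 := Real.log_nonpos (h0.le.trans hle) hle1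
  rw [abs_of_nonpos h2, abs_of_nonpos (this.trans h2)]
  linarith

theorem integrable_gain (k : ℕ) : Integrable (gain ν X k) (seqMeasure ν) := by
  refine Integrable.sub ?_ (integrable_first ν fun i => Real.log (weight ν i))
  refine (integrable_log_infRatio_zero ν hXm).mono
    (Real.measurable_log.comp (measurable_infRatio ν hXm k).ennreal_toReal).aestronglyMeasurable ?_
  filter_upwards [infRatio_pos ν hXm 0] with ω h
  simpa [Real.norm_eq_abs] using abs_log_infRatio_le ν hXm h

theorem tendsto_integral_gain (hν : ∀ i, ν {i} ≠ 0) :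
    Tendsto (fun k => ∫ ω, gain ν X k ω ∂seqMeasure ν) atTop (𝓝 (rate ν X)) := by
  refine tendsto_integral_of_dominated_convergence
    (fun ω => |Real.log (infRatio ν X 0 ω).toReal| + |Real.log (weight ν (ω 0))|)
    (fun k => (integrable_gain ν hXm k).1) ?_ (fun k => ?_) ?_
  · exact (integrable_log_infRatio_zero ν hXm).abs.add
      (integrable_first ν fun i => Real.log (weight ν i)).abs
  · filter_upwards [infRatio_pos ν hXm 0] with ω h
    exact (abs_sub _ _).trans (add_le_add (abs_log_infRatio_le ν hXm h) le_rfl)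
  · filter_upwards [tendsto_infRatio ν hXm, density_pos ν hXm, density_le_one ν hXm]
      with ω h h0 h1
    have htop : density ν X ω ≠ ⊤ := ne_top_of_le_ne_top ENNReal.one_ne_top h1
    have hw : weight ν (ω 0) ≠ 0 := (ENNReal.toReal_pos (hν _) (measure_ne_top _ _)).ne'
    rw [Real.log_div (ENNReal.toReal_pos h0.ne' htop).ne' hw]
    exact (((ENNReal.tendsto_toReal htop).comp h).log
      (ENNReal.toReal_pos h0.ne' htop).ne').sub_const _

variable {r t : ι → ℝ} (hr : ∀ i, r i ≠ 0) (hX : ∀ ω, X ω = r (ω 0) * X (shift ω) + t (ω 0))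
include hr hX

/-- One step of the product formula. -/
theorem law_step (hν : ∀ i, ν {i} ≠ 0) {k : ℕ} {ω : ℕ → ι} (hpos : 0 < infRatio ν X k ω) {ρ : ℝ}
    (hρ : 0 < ρ) (hρk : ρ < 1 / ((k : ℝ) + 1)) :
    (law ν X (ball (X ω) ρ)).toReal * Real.exp (gain ν X k ω) ≤
      (law ν X (ball (X (shift ω)) (ρ / |r (ω 0)|))).toReal := by
  have hw : 0 < weight ν (ω 0) := ENNReal.toReal_pos (hν _) (measure_ne_top _ _)
  have hR : 0 < (infRatio ν X k ω).toReal :=
    ENNReal.toReal_pos hpos.ne' (ne_top_of_le_ne_top ENNReal.one_ne_top (infRatio_le_one ν hXm k ω))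
  have h := infRatio_mul_law_le ν hXm k ω hρ hρk
  have hb := branch_ball ν hXm hX (ω 0) (hr _) (X (shift ω)) (ρ / |r (ω 0)|)
  rw [← hX ω, mul_div_cancel₀ _ (abs_ne_zero.2 (hr _))] at hb
  rw [hb] at h
  have h' := ENNReal.toReal_mono (ENNReal.mul_ne_top (measure_ne_top _ _) (measure_ne_top _ _)) h
  rw [ENNReal.toReal_mul, ENNReal.toReal_mul] at h'
  rw [gain, Real.exp_sub, Real.exp_log hR, Real.exp_log hw, mul_div_assoc', div_le_iff₀ hw]
  change _ ≤ _ * (ν {ω 0}).toReal
  linarith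

/-- The product formula along an orbit. -/
theorem law_iterate (hν : ∀ i, ν {i} ≠ 0) (k : ℕ) : ∀ (J : ℕ) (ω : ℕ → ι) (ρ : ℝ), 0 < ρ →
    (∀ j < J, 0 < infRatio ν X k (shift^[j] ω) ∧
      ρ / ∏ i ∈ Finset.range j, |r (ω i)| < 1 / ((k : ℝ) + 1)) →
    (law ν X (ball (X ω) ρ)).toReal *
      Real.exp (∑ j ∈ Finset.range J, gain ν X k (shift^[j] ω)) ≤ 1 := by
  intro J
  induction J with
  | zero =>
    intro ω ρ _ _
    simp only [Finset.range_zero, Finset.sum_empty, Real.exp_zero, mul_one]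
    haveI : IsProbabilityMeasure (law ν X) := Measure.isProbabilityMeasure_map hXm.aemeasurable
    exact measureReal_le_one
  | succ J ih =>
    intro ω ρ hρ h
    have h0 := h 0 (Nat.succ_pos J)
    simp only [Finset.range_zero, Finset.prod_empty, div_one, Function.iterate_zero, id_eq] at h0
    have hstep := law_step ν hXm hr hX hν h0.1 hρ h0.2
    have hr0 : 0 < |r (ω 0)| := abs_pos.2 (hr _)
    have hih := ih (shift ω) (ρ / |r (ω 0)|) (by positivity) fun j hj => by
      have hj' := h (j + 1) (by omega)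
      rw [Finset.prod_range_succ'] at hj'
      refine ⟨by rw [← Function.iterate_succ_apply]; exact hj'.1, ?_⟩
      have e : ρ / |r (ω 0)| / ∏ i ∈ Finset.range j, |r (shift ω i)| =
          ρ / ((∏ i ∈ Finset.range j, |r (ω (i + 1))|) * |r (ω 0)|) := by
        rw [div_div, mul_comm]
        rfl
      rw [e]
      exact hj'.2
    rw [Finset.sum_range_succ']
    simp only [Function.iterate_succ_apply, Function.iterate_zero, id_eq]
    rw [Real.exp_add]
    calc (law ν X (ball (X ω) ρ)).toReal *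
          (Real.exp (∑ j ∈ Finset.range J, gain ν X k (shift^[j] (shift ω))) *
            Real.exp (gain ν X k ω))
        = ((law ν X (ball (X ω) ρ)).toReal * Real.exp (gain ν X k ω)) *
            Real.exp (∑ j ∈ Finset.range J, gain ν X k (shift^[j] (shift ω))) := by ring
      _ ≤ (law ν X (ball (X (shift ω)) (ρ / |r (ω 0)|))).toReal *
            Real.exp (∑ j ∈ Finset.range J, gain ν X k (shift^[j] (shift ω))) :=
          mul_le_mul_of_nonneg_right hstep (Real.exp_pos _).le
      _ ≤ 1 := hih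

variable (hr1 : ∀ i, |r i| < 1)
include hr1

/-- With positive probability the balls at the coded point are small at all scales. -/
theorem measure_small_pos (hν : ∀ i, ν {i} ≠ 0) {s : ℝ} (hs0 : 0 ≤ s)
    (hs : s * expo ν r < rate ν X) :
    0 < seqMeasure ν {ω | ∃ K : ℝ, 0 ≤ K ∧ ∀ ρ : ℝ, 0 < ρ →
      law ν X (ball (X ω) ρ) ≤ ENNReal.ofReal (K * ρ ^ s)} := by
  haveI : IsProbabilityMeasure (law ν X) := Measure.isProbabilityMeasure_map hXm.aemeasurable
  obtain ⟨k, hk⟩ := ((tendsto_integral_gain ν hXm hν).eventually (eventually_gt_nhds hs)).exists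
  set f : (ℕ → ι) → ℝ := fun ω => gain ν X k ω + s * Real.log |r (ω 0)| with hf
  have hfi : Integrable f (seqMeasure ν) :=
    (integrable_gain ν hXm k).add (integrable_first ν fun i => s * Real.log |r i|)
  have hfm : Measurable f :=
    ((Real.measurable_log.comp (measurable_infRatio ν hXm k).ennreal_toReal).sub
      (measurable_first fun i => Real.log (weight ν i))).add
      (measurable_first fun i => s * Real.log |r i|)
  have hint : ∫ ω, f ω ∂seqMeasure ν = (∫ ω, gain ν X k ω ∂seqMeasure ν) - s * expo ν r := by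
    rw [hf, integral_add (integrable_gain ν hXm k) (integrable_first ν fun i => s * Real.log |r i|),
      integral_const_mul, expo, integral_neg]
    ring
  have hF := exists_all_sums_nonneg (measurePreserving_shift ν) hfm hfi (by rw [hint]; linarith)
  have hgood : ∀ᵐ ω ∂seqMeasure ν, ∀ j, 0 < infRatio ν X k (shift^[j] ω) :=
    ae_all_iff.2 fun j => ((measurePreserving_shift ν).iterate j).quasiMeasurePreserving.ae
      (infRatio_pos ν hXm k)
  refine lt_of_lt_of_le hF (measure_mono_ae ?_)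
  filter_upwards [hgood] with ω hpos hω
  have hω' : ∀ n, 0 ≤ ∑ j ∈ Finset.range n, f (shift^[j] ω) := hω
  set δ : ℝ := 1 / ((k : ℝ) + 1) with hδ
  have hδ0 : 0 < δ := by positivity
  refine ⟨(δ ^ s)⁻¹, by positivity, fun ρ hρ => ?_⟩
  set P : ℕ → ℝ := fun j => ∏ i ∈ Finset.range j, |r (ω i)| with hP
  have hPpos : ∀ j, 0 < P j := fun j => Finset.prod_pos fun i _ => abs_pos.2 (hr _)
  obtain ⟨c, hc0, hc1, hc⟩ : ∃ c : ℝ, 0 ≤ c ∧ c < 1 ∧ ∀ i, |r i| ≤ c := by
    haveI : Nonempty ι := ⟨ω 0⟩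
    obtain ⟨i, -, hi⟩ := Finset.exists_max_image Finset.univ (fun i => |r i|) Finset.univ_nonempty
    exact ⟨|r i|, abs_nonneg _, hr1 i, fun j => hi j (Finset.mem_univ _)⟩
  have hex : ∃ J, δ ≤ ρ / P J := by
    obtain ⟨n, hn⟩ := exists_pow_lt_of_lt_one (show 0 < ρ / δ by positivity) hc1
    refine ⟨n, ?_⟩
    rw [le_div_iff₀ (hPpos n)]
    have hle : P n ≤ c ^ n := by
      calc P n ≤ ∏ _i ∈ Finset.range n, c :=
            Finset.prod_le_prod (fun i _ => abs_nonneg _) fun i _ => hc _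
        _ = c ^ n := by simp
    have := (lt_div_iff₀ hδ0).1 hn
    nlinarith
  classical
  set J := Nat.find hex with hJ
  have hJle : P J ≤ ρ / δ := by
    have := Nat.find_spec hex
    rw [le_div_iff₀ (hPpos _)] at this
    rw [le_div_iff₀ hδ0]
    linarith
  have hit := law_iterate ν hXm hr hX hν k J ω ρ hρ fun j hj =>
    ⟨hpos j, not_le.1 (Nat.find_min hex hj)⟩
  have hsum : P J ^ (-s) ≤ Real.exp (∑ j ∈ Finset.range J, gain ν X k (shift^[j] ω)) := by
    rw [Real.rpow_def_of_pos (hPpos J), Real.exp_le_exp]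
    have hlog : Real.log (P J) = ∑ j ∈ Finset.range J, Real.log |r ((shift^[j] ω) 0)| := by
      rw [hP, Real.log_prod fun i _ => abs_ne_zero.2 (hr _)]
      exact Finset.sum_congr rfl fun i _ => by rw [iterate_shift]; simp
    have h := hω' J
    simp only [hf, Finset.sum_add_distrib, ← Finset.mul_sum] at h
    rw [hlog]
    linarith
  have hmain : (law ν X (ball (X ω) ρ)).toReal ≤ (δ ^ s)⁻¹ * ρ ^ s := by
    have h1 : (law ν X (ball (X ω) ρ)).toReal * P J ^ (-s) ≤ 1 :=
      (mul_le_mul_of_nonneg_left hsum ENNReal.toReal_nonneg).trans hit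
    rw [Real.rpow_neg (hPpos J).le, ← div_eq_mul_inv,
      div_le_one (Real.rpow_pos_of_pos (hPpos J) _)] at h1
    refine h1.trans ((Real.rpow_le_rpow (hPpos J).le hJle hs0).trans (le_of_eq ?_))
    rw [Real.div_rpow hρ.le hδ0.le, div_eq_inv_mul]
  exact ENNReal.le_ofReal_iff_toReal_le (measure_ne_top _ _) (by positivity) |>.2 hmain

/-- The balls at almost every coded point are small at all scales. -/
theorem ae_ball_le (hν : ∀ i, ν {i} ≠ 0) {s : ℝ} (hs0 : 0 ≤ s)
    (hs : s * expo ν r < rate ν X) :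
    ∀ᵐ ω ∂seqMeasure ν, ∃ K : ℝ, 0 < K ∧ ∀ ρ : ℝ, 0 < ρ →
      law ν X (ball (X ω) ρ) ≤ ENNReal.ofReal (K * ρ ^ s) := by
  set G : Set (ℕ → ι) := {ω | ∃ N : ℕ, ∀ q : {q : ℚ // 0 < q},
    law ν X (ball (X ω) (q : ℚ)) ≤ ENNReal.ofReal ((N : ℝ) * ((q : ℚ) : ℝ) ^ s)} with hG
  have hGm : MeasurableSet G := by
    rw [hG, Set.ofPred_exists]
    refine MeasurableSet.iUnion fun N => ?_
    rw [Set.ofPred_forall]
    exact MeasurableSet.iInter fun q =>
      measurableSet_le ((measurable_measure_ball _ _).comp hXm) measurable_const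
  have hinv : ∀ ω ∈ G, shift ω ∈ G := by
    rintro ω ⟨N, hN⟩
    obtain ⟨M, hM⟩ := exists_nat_ge ((N : ℝ) / (ν {ω 0}).toReal)
    refine ⟨M, fun q => ?_⟩
    have hq : (0 : ℝ) < ((q : ℚ) : ℝ) := by exact_mod_cast q.2
    have hlt : |r (ω 0)| * ((q : ℚ) : ℝ) < ((q : ℚ) : ℝ) := mul_lt_of_lt_one_left hq (hr1 _)
    obtain ⟨q', hq1, hq2⟩ := exists_rat_btwn hlt
    have hq' : (0 : ℚ) < q' := by
      have : (0 : ℝ) < (q' : ℝ) := lt_of_le_of_lt (by positivity) hq1
      exact_mod_cast this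
    have h := branch_ball ν hXm hX (ω 0) (hr _) (X (shift ω)) ((q : ℚ) : ℝ)
    rw [← hX ω] at h
    have h2 : ν {ω 0} * law ν X (ball (X (shift ω)) ((q : ℚ) : ℝ)) ≤
        ENNReal.ofReal ((N : ℝ) * ((q : ℚ) : ℝ) ^ s) := by
      rw [← h]
      refine (branch_le ν hXm _ _).trans ((measure_mono (ball_subset_ball hq1.le)).trans
        ((hN ⟨q', hq'⟩).trans (ENNReal.ofReal_le_ofReal ?_)))
      exact mul_le_mul_of_nonneg_left
        (Real.rpow_le_rpow (by exact_mod_cast hq'.le) hq2.le hs0) (Nat.cast_nonneg _)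
    have hw : 0 < (ν {ω 0}).toReal := ENNReal.toReal_pos (hν _) (measure_ne_top _ _)
    have h3 := ENNReal.toReal_le_of_le_ofReal (by positivity) h2
    rw [ENNReal.toReal_mul] at h3
    refine (ENNReal.le_ofReal_iff_toReal_le (measure_ne_top _ _) (by positivity)).2 ?_
    rw [div_le_iff₀ hw] at hM
    have h4 : (N : ℝ) * ((q : ℚ) : ℝ) ^ s ≤ M * (ν {ω 0}).toReal * ((q : ℚ) : ℝ) ^ s :=
      mul_le_mul_of_nonneg_right hM (Real.rpow_nonneg hq.le s)
    exact le_of_mul_le_mul_left (by linarith) hw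
  have hpos : seqMeasure ν G ≠ 0 := by
    refine (lt_of_lt_of_le (measure_small_pos ν hXm hr hX hr1 hν hs0 hs) (measure_mono ?_)).ne'
    rintro ω ⟨K, -, hK⟩
    obtain ⟨N, hN⟩ := exists_nat_ge K
    refine ⟨N, fun q => ?_⟩
    have hq : (0 : ℝ) < ((q : ℚ) : ℝ) := by exact_mod_cast q.2
    exact (hK _ hq).trans (ENNReal.ofReal_le_ofReal
      (mul_le_mul_of_nonneg_right hN (Real.rpow_nonneg hq.le s)))
  have hone := (measure_zero_or_one ν hGm hinv).resolve_left hpos
  filter_upwards [(mem_ae_iff_prob_eq_one hGm).2 hone] with ω hω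
  obtain ⟨N, hN⟩ := hω
  refine ⟨((N : ℝ) + 1) * 2 ^ s, by positivity, fun ρ hρ => ?_⟩
  obtain ⟨q, hq1, hq2⟩ := exists_rat_btwn (show ρ < 2 * ρ by linarith)
  have hq : (0 : ℚ) < q := by
    have : (0 : ℝ) < (q : ℝ) := hρ.trans hq1
    exact_mod_cast this
  refine (measure_mono (ball_subset_ball hq1.le)).trans
    ((hN ⟨q, hq⟩).trans (ENNReal.ofReal_le_ofReal ?_))
  calc (N : ℝ) * (q : ℝ) ^ s ≤ ((N : ℝ) + 1) * (2 * ρ) ^ s :=
        mul_le_mul (by linarith) (Real.rpow_le_rpow (hρ.le.trans hq1.le) hq2.le hs0)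
          (Real.rpow_nonneg (hρ.le.trans hq1.le) s) (by positivity)
    _ = _ := by rw [Real.mul_rpow (by norm_num) hρ.le]; ring

/-- Sets of positive measure have dimension at least `s` whenever `s chi < rate`. -/
theorem le_dimH_of_pos (hν : ∀ i, ν {i} ≠ 0) {E : Set ℝ} (hEm : MeasurableSet E)
    (hE : law ν X E ≠ 0) {s : ℝ} (hs0 : 0 < s) (hs : s * expo ν r < rate ν X) :
    ENNReal.ofReal s ≤ dimH E := by
  set A : ℕ → Set ℝ := fun N => E ∩ {x | ∀ q : {q : ℚ // 0 < q},
    law ν X (ball x (q : ℚ)) ≤ ENNReal.ofReal ((N : ℝ) * ((q : ℚ) : ℝ) ^ s)} with hA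
  have hAm : ∀ N, MeasurableSet (A N) := fun N => hEm.inter (by
    rw [Set.ofPred_forall]
    exact MeasurableSet.iInter fun q =>
      measurableSet_le (measurable_measure_ball _ _) measurable_const)
  obtain ⟨N, hN⟩ : ∃ N, law ν X (A N) ≠ 0 := by
    by_contra! hall
    apply hE
    rw [law, Measure.map_apply hXm hEm]
    refine le_antisymm ((measure_mono_ae ?_).trans_eq
      (measure_iUnion_null (s := fun N => X ⁻¹' A N) fun N => ?_)) zero_le
    · filter_upwards [ae_ball_le ν hXm hr hX hr1 hν hs0.le hs] with ω hω hmem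
      obtain ⟨K, -, hK⟩ := hω
      obtain ⟨N, hN⟩ := exists_nat_ge K
      refine mem_iUnion.2 ⟨N, hmem, fun q => ?_⟩
      have hq : (0 : ℝ) < ((q : ℚ) : ℝ) := by exact_mod_cast q.2
      exact (hK _ hq).trans (ENNReal.ofReal_le_ofReal
        (mul_le_mul_of_nonneg_right hN (Real.rpow_nonneg hq.le s)))
    · rw [← Measure.map_apply hXm (hAm N)]
      exact hall N
  refine le_trans (le_dimH_of_ball_le (law ν X) (hAm N) hN hs0 one_pos
    (K := ((N : ℝ) + 1) * 2 ^ s) (by positivity) fun x hx ρ hρ _ => ?_)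
    (dimH_mono inter_subset_left)
  obtain ⟨q, hq1, hq2⟩ := exists_rat_btwn (show ρ < 2 * ρ by linarith)
  have hq : (0 : ℚ) < q := by
    have : (0 : ℝ) < (q : ℝ) := hρ.trans hq1
    exact_mod_cast this
  refine (measure_mono (ball_subset_ball hq1.le)).trans
    ((hx.2 ⟨q, hq⟩).trans (ENNReal.ofReal_le_ofReal ?_))
  calc (N : ℝ) * (q : ℝ) ^ s ≤ ((N : ℝ) + 1) * (2 * ρ) ^ s :=
        mul_le_mul (by linarith) (Real.rpow_le_rpow (hρ.le.trans hq1.le) hq2.le hs0.le)
          (Real.rpow_nonneg (hρ.le.trans hq1.le) s) (by positivity)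
    _ = _ := by rw [Real.mul_rpow (by norm_num) hρ.le]; ring

end

end Vale.Agent.P114.Meas
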