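import Vale.Agent.P114.Meas.Branch
import Vale.Agent.P114.Meas.Cover

/-!
# P114: ratios of branch mass to total mass on small balls

The infimum of the ratio over small radii tends to the Radon-Nikodym derivative, and its logarithm
is dominated by an integrable function.
-/

open MeasureTheory ProbabilityTheory Set Filter Metric
open scoped ENNReal Topology

namespace Vale.Agent.P114.Meas

noncomputable section

theorem measurable_measure_ball (m : Measure ℝ) [SFinite m] (ρ : ℝ) :
    Measurable fun x => m (ball x ρ) := by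
  have hs : MeasurableSet {p : ℝ × ℝ | dist p.2 p.1 < ρ} :=
    measurableSet_lt (measurable_snd.dist measurable_fst) measurable_const
  exact measurable_measure_prodMk_left hs

/-- A ball as an increasing union of closed balls, in measure. -/
theorem tendsto_measure_closedBall (m : Measure ℝ) (x : ℝ) {ρ : ℝ} (hρ : 0 < ρ) :
    Tendsto (fun n : ℕ => m (closedBall x (ρ - ρ / (n + 2)))) atTop (𝓝 (m (ball x ρ))) := by
  have hmono : Monotone fun n : ℕ => closedBall x (ρ - ρ / ((n : ℝ) + 2)) := fun a b hab =>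
    closedBall_subset_closedBall (by gcongr)
  have hlim : Tendsto (fun n : ℕ => ρ - ρ / ((n : ℝ) + 2)) atTop (𝓝 ρ) := by
    simpa using tendsto_const_nhds.sub ((tendsto_const_nhds (x := ρ)).div_atTop
      (tendsto_atTop_add_const_right atTop (2 : ℝ) tendsto_natCast_atTop_atTop))
  have hun : ⋃ n : ℕ, closedBall x (ρ - ρ / ((n : ℝ) + 2)) = ball x ρ := by
    refine subset_antisymm (iUnion_subset fun n => closedBall_subset_ball ?_) fun y hy => ?_
    · have : 0 < ρ / ((n : ℝ) + 2) := by positivity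
      linarith
    · obtain ⟨n, hn⟩ := (hlim.eventually (eventually_gt_nhds (mem_ball.1 hy))).exists
      exact mem_iUnion.2 ⟨n, mem_closedBall.2 hn.le⟩
  rw [← hun]
  exact tendsto_measure_iUnion_atTop hmono

variable {ι : Type*} [Fintype ι] [MeasurableSpace ι] [MeasurableSingletonClass ι]
  (ν : Measure ι) [IsProbabilityMeasure ν] (X : (ℕ → ι) → ℝ)

/-- Branch mass over total mass on a ball. -/
def ballRatio (i : ι) (x ρ : ℝ) : ℝ≥0∞ := branch ν X i (ball x ρ) / law ν X (ball x ρ)

/-- The infimum of the ratio over rational radii below `1/(k+1)`. -/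
def infRatio (k : ℕ) (ω : ℕ → ι) : ℝ≥0∞ :=
  ⨅ q : {q : ℚ // 0 < (q : ℝ) ∧ (q : ℝ) < 1 / ((k : ℝ) + 1)},
    ballRatio ν X (ω 0) (X ω) (q : ℚ)

/-- The density of the branch of the first letter at the coded point. -/
def density (ω : ℕ → ι) : ℝ≥0∞ := (branch ν X (ω 0)).rnDeriv (law ν X) (X ω)

variable {X} (hXm : Measurable X)
include hXm

omit [IsProbabilityMeasure ν] in
theorem measurable_comp_first {F : ι → ℝ → ℝ≥0∞} (hF : ∀ i, Measurable (F i)) :
    Measurable fun ω : ℕ → ι => F (ω 0) (X ω) :=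
  (measurable_from_prod_countable_left (f := fun p : ℝ × ι => F p.2 p.1) hF).comp
    (hXm.prodMk (measurable_pi_apply 0))

theorem measurable_density : Measurable (density ν X) :=
  measurable_comp_first hXm fun _ => Measure.measurable_rnDeriv _ _

theorem measurable_infRatio (k : ℕ) : Measurable (infRatio ν X k) :=
  Measurable.iInf fun q => measurable_comp_first hXm (F := fun i x => ballRatio ν X i x (q : ℚ))
    fun i => (measurable_measure_ball _ _).div (measurable_measure_ball _ _)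

omit [Fintype ι] [MeasurableSingletonClass ι] in
theorem ballRatio_le_one (i : ι) (x ρ : ℝ) : ballRatio ν X i x ρ ≤ 1 :=
  ENNReal.div_le_of_le_mul (by rw [one_mul]; exact branch_le ν hXm i _)

omit [Fintype ι] [MeasurableSingletonClass ι] in
theorem infRatio_le_one (k : ℕ) (ω : ℕ → ι) : infRatio ν X k ω ≤ 1 := by
  obtain ⟨q, hq0, hq1⟩ := exists_rat_btwn (show (0 : ℝ) < 1 / ((k : ℝ) + 1) by positivity)
  exact iInf_le_of_le ⟨q, by exact_mod_cast hq0, hq1⟩ (ballRatio_le_one ν hXm _ _ _)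

omit [Fintype ι] [MeasurableSingletonClass ι] hXm in
theorem infRatio_mono {k l : ℕ} (h : k ≤ l) (ω : ℕ → ι) :
    infRatio ν X k ω ≤ infRatio ν X l ω :=
  le_iInf fun q => iInf_le_of_le ⟨q.1, q.2.1, lt_of_lt_of_le q.2.2 (by gcongr)⟩ le_rfl

/-- The maximal inequality for the infimum. -/
theorem measure_infRatio_lt_le (k : ℕ) (t : ℝ≥0∞) :
    seqMeasure ν {ω | infRatio ν X k ω < t} ≤ Fintype.card ι * (2 * t) := by
  have hsub : {ω | infRatio ν X k ω < t} ⊆
      ⋃ i : ι, {ω | ω 0 = i} ∩ X ⁻¹' smallRatio (law ν X) (branch ν X i) t := by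
    intro ω hω
    simp only [Set.mem_ofPred_eq, infRatio] at hω
    obtain ⟨q, hq⟩ := iInf_lt_iff.1 hω
    refine mem_iUnion.2 ⟨ω 0, rfl, (q : ℚ), q.2.1, ?_⟩
    rcases eq_or_ne (law ν X (ball (X ω) (q : ℚ))) 0 with h0 | h0
    · exact ((branch_le ν hXm _ _).trans_eq h0).trans zero_le
    · exact ((ENNReal.div_le_iff h0 (measure_ne_top _ _)).1 hq.le)
  refine (measure_mono hsub).trans ((measure_iUnion_fintype_le _ _).trans ?_)
  calc ∑ i : ι, seqMeasure ν ({ω | ω 0 = i} ∩ X ⁻¹' smallRatio (law ν X) (branch ν X i) t)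
      ≤ ∑ _i : ι, 2 * t * law ν X univ := Finset.sum_le_sum fun i _ => by
        refine le_trans ?_ (measure_smallRatio_le (law ν X) (branch ν X i) t)
        refine le_trans ?_ (Measure.le_map_apply hXm.aemeasurable _)
        rw [Measure.restrict_apply' (measurableSet_first i), inter_comm]
    _ = Fintype.card ι * (2 * t) := by
        simp [law, Measure.map_apply hXm MeasurableSet.univ]

theorem infRatio_pos (k : ℕ) : ∀ᵐ ω ∂seqMeasure ν, 0 < infRatio ν X k ω := by
  refine ae_iff.2 (le_antisymm ?_ zero_le)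
  have hlim : Tendsto (fun n : ℕ => (Fintype.card ι : ℝ≥0∞) * (2 * ((n : ℝ≥0∞) + 1)⁻¹)) atTop
      (𝓝 ((Fintype.card ι : ℝ≥0∞) * (2 * 0))) := by
    refine ENNReal.Tendsto.const_mul (ENNReal.Tendsto.const_mul ?_ (Or.inr (by simp))) (Or.inr (by simp))
    exact_mod_cast ENNReal.tendsto_inv_nat_nhds_zero.comp (tendsto_add_atTop_nat 1)
  rw [mul_zero, mul_zero] at hlim
  refine ge_of_tendsto' hlim fun n => (measure_mono fun ω hω => ?_).trans
    (measure_infRatio_lt_le ν hXm k _)
  simp only [Set.mem_ofPred_eq, not_lt, nonpos_iff_eq_zero] at hω ⊢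
  rw [hω]
  exact ENNReal.inv_pos.2 (by simp)

omit [Fintype ι] [MeasurableSingletonClass ι] in
/-- The infimum bounds the ratio at every real radius. -/
theorem infRatio_mul_law_le (k : ℕ) (ω : ℕ → ι) {ρ : ℝ} (hρ : 0 < ρ)
    (hρk : ρ < 1 / ((k : ℝ) + 1)) :
    infRatio ν X k ω * law ν X (ball (X ω) ρ) ≤ branch ν X (ω 0) (ball (X ω) ρ) := by
  refine le_of_tendsto' (ENNReal.Tendsto.const_mul (tendsto_measure_closedBall (law ν X) (X ω) hρ)
    (Or.inr (ne_top_of_le_ne_top ENNReal.one_ne_top (infRatio_le_one ν hXm k ω)))) fun n => ?_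
  have hlt : ρ - ρ / ((n : ℝ) + 2) < ρ := sub_lt_self _ (by positivity)
  have hpos : 0 ≤ ρ - ρ / ((n : ℝ) + 2) := sub_nonneg.2 (div_le_self hρ.le (by linarith [(Nat.cast_nonneg n : (0 : ℝ) ≤ n)]))
  obtain ⟨q, hq0, hq1⟩ := exists_rat_btwn hlt
  calc infRatio ν X k ω * law ν X (closedBall (X ω) (ρ - ρ / ((n : ℝ) + 2)))
      ≤ ballRatio ν X (ω 0) (X ω) q * law ν X (ball (X ω) q) := by
        refine mul_le_mul' (iInf_le_of_le ⟨q, hpos.trans_lt hq0, hq1.trans hρk⟩ le_rfl)
          (measure_mono (closedBall_subset_ball hq0))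
    _ ≤ branch ν X (ω 0) (ball (X ω) q) := ENNReal.mul_le_of_le_div le_rfl
    _ ≤ _ := measure_mono (ball_subset_ball hq1.le)

/-- The infimum tends to the density. -/
theorem tendsto_infRatio :
    ∀ᵐ ω ∂seqMeasure ν, Tendsto (fun k => infRatio ν X k ω) atTop (𝓝 (density ν X ω)) := by
  have hb : ∀ᵐ x ∂law ν X, ∀ i : ι, Tendsto
      (fun r => branch ν X i (closedBall x r) / law ν X (closedBall x r)) (𝓝[>] 0)
      (𝓝 ((branch ν X i).rnDeriv (law ν X) x)) :=
    ae_all_iff.2 fun i => Besicovitch.ae_tendsto_rnDeriv _ _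
  filter_upwards [ae_of_ae_map hXm.aemeasurable hb, infRatio_pos ν hXm 0] with ω hω hpos
  have hpos' : ∀ ρ : ℝ, 0 < ρ → law ν X (ball (X ω) ρ) ≠ 0 := by
    intro ρ hρ h0
    obtain ⟨q, hq0, hq1⟩ := exists_rat_btwn (show (0 : ℝ) < min ρ 1 by positivity)
    refine hpos.not_ge (iInf_le_of_le ⟨q, by exact_mod_cast hq0,
      by simpa using lt_of_lt_of_le hq1 (min_le_right _ _)⟩ ?_)
    have hsub := ball_subset_ball (x := X ω) (hq1.le.trans (min_le_left _ _))
    have h1 : branch ν X (ω 0) (ball (X ω) q) = 0 :=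
      le_antisymm ((branch_le ν hXm _ _).trans ((measure_mono hsub).trans_eq h0)) zero_le
    simp [ballRatio, h1]
  have hopen : Tendsto (fun r => ballRatio ν X (ω 0) (X ω) r) (𝓝[>] 0)
      (𝓝 (density ν X ω)) := by
    have key : ∀ C : Set ℝ≥0∞, IsClosed C → ∀ δ : ℝ,
        (∀ r ∈ Ioo 0 δ, branch ν X (ω 0) (closedBall (X ω) r) / law ν X (closedBall (X ω) r) ∈ C) →
        ∀ r ∈ Ioo 0 δ, ballRatio ν X (ω 0) (X ω) r ∈ C := by
      intro C hC δ h r hr
      refine hC.mem_of_tendsto (ENNReal.Tendsto.div (tendsto_measure_closedBall _ (X ω) hr.1)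
        (Or.inr (hpos' r hr.1)) (tendsto_measure_closedBall _ (X ω) hr.1)
        (Or.inr (measure_ne_top _ _))) (Eventually.of_forall fun n => h _ ⟨?_, ?_⟩)
      · exact sub_pos.2 (div_lt_self hr.1 (by linarith [(Nat.cast_nonneg n : (0 : ℝ) ≤ n)]))
      · exact lt_of_le_of_lt (sub_le_self _ (div_nonneg hr.1.le (by positivity))) hr.2
    refine tendsto_order.2 ⟨fun a ha => ?_, fun b hb' => ?_⟩
    · obtain ⟨a', ha1, ha2⟩ := exists_between ha
      obtain ⟨δ, hδ, h⟩ := mem_nhdsGT_iff_exists_Ioo_subset.1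
        ((hω (ω 0)).eventually (eventually_gt_nhds ha2))
      filter_upwards [Ioo_mem_nhdsGT hδ] with r hr
      exact ha1.trans_le (key (Ici a') isClosed_Ici δ
        (fun r' hr' => Ioi_subset_Ici_self (h hr' : _ ∈ Ioi a')) r hr)
    · obtain ⟨b', hb1, hb2⟩ := exists_between hb'
      obtain ⟨δ, hδ, h⟩ := mem_nhdsGT_iff_exists_Ioo_subset.1
        ((hω (ω 0)).eventually (eventually_lt_nhds hb1))
      filter_upwards [Ioo_mem_nhdsGT hδ] with r hr
      exact lt_of_le_of_lt (key (Iic b') isClosed_Iic δ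
        (fun r' hr' => Iio_subset_Iic_self (h hr' : _ ∈ Iio b')) r hr) hb2
  refine tendsto_order.2 ⟨fun a ha => ?_, fun b hb' => ?_⟩
  · obtain ⟨a', ha1, ha2⟩ := exists_between ha
    obtain ⟨δ, hδ, h⟩ := mem_nhdsGT_iff_exists_Ioo_subset.1
      (hopen.eventually (eventually_gt_nhds ha2))
    filter_upwards [(tendsto_one_div_add_atTop_nhds_zero_nat (𝕜 := ℝ)).eventually
      (eventually_lt_nhds hδ)] with k hk
    exact ha1.trans_le (le_iInf fun q => le_of_lt (h ⟨q.2.1, q.2.2.trans hk⟩))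
  · obtain ⟨δ, hδ, h⟩ := mem_nhdsGT_iff_exists_Ioo_subset.1
      (hopen.eventually (eventually_lt_nhds hb'))
    refine Eventually.of_forall fun k => ?_
    obtain ⟨q, hq0, hq1⟩ :=
      exists_rat_btwn (lt_min hδ (show (0 : ℝ) < 1 / ((k : ℝ) + 1) by positivity))
    exact lt_of_le_of_lt
      (iInf_le_of_le ⟨q, by exact_mod_cast hq0, hq1.trans_le (min_le_right _ _)⟩ le_rfl)
      (h ⟨by exact_mod_cast hq0, hq1.trans_le (min_le_left _ _)⟩)

theorem density_pos : ∀ᵐ ω ∂seqMeasure ν, 0 < density ν X ω := by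
  have h : ∀ i : ι, ∀ᵐ ω ∂seqMeasure ν, ω 0 = i → 0 < density ν X ω := by
    intro i
    have h1 : ∀ᵐ x ∂branch ν X i, 0 < (branch ν X i).rnDeriv (law ν X) x :=
      Measure.rnDeriv_pos (Measure.absolutelyContinuous_of_le (branch_le ν hXm i))
    filter_upwards [(ae_restrict_iff' (measurableSet_first i)).1
      (ae_of_ae_map hXm.aemeasurable h1)] with ω hω h0
    simpa [density, h0] using hω h0
  filter_upwards [ae_all_iff.2 h] with ω hω using hω _ rfl

theorem density_le_one : ∀ᵐ ω ∂seqMeasure ν, density ν X ω ≤ 1 := by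
  filter_upwards [tendsto_infRatio ν hXm] with ω hω
  exact le_of_tendsto' hω fun k => infRatio_le_one ν hXm k ω

theorem integrable_log_infRatio_zero :
    Integrable (fun ω => Real.log (infRatio ν X 0 ω).toReal) (seqMeasure ν) := by
  refine ⟨(Real.measurable_log.comp (measurable_infRatio ν hXm 0).ennreal_toReal).aestronglyMeasurable, ?_⟩
  have hle : ∀ ω, ‖Real.log (infRatio ν X 0 ω).toReal‖ₑ ≤
      ∑' n : ℕ, {ω' | infRatio ν X 0 ω' < ENNReal.ofReal (Real.exp (-(n : ℝ) + 1))}.indicator 1 ω := by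
    intro ω
    set R := infRatio ν X 0 ω with hR
    have hR1 : R ≤ 1 := infRatio_le_one ν hXm 0 ω
    have hRt : R.toReal ≤ 1 := ENNReal.toReal_le_of_le_ofReal zero_le_one (by simpa using hR1)
    have hlog : Real.log R.toReal ≤ 0 := Real.log_nonpos ENNReal.toReal_nonneg hRt
    rw [Real.enorm_eq_ofReal_abs, abs_of_nonpos hlog]
    set N := ⌈-Real.log R.toReal⌉₊ with hN
    calc ENNReal.ofReal (-Real.log R.toReal) ≤ (N : ℝ≥0∞) := by
          rw [← ENNReal.ofReal_natCast]
          exact ENNReal.ofReal_le_ofReal (Nat.le_ceil _)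
      _ = ∑ _n ∈ Finset.range N, (1 : ℝ≥0∞) := by simp
      _ ≤ ∑ n ∈ Finset.range N, {ω' | infRatio ν X 0 ω' <
            ENNReal.ofReal (Real.exp (-(n : ℝ) + 1))}.indicator 1 ω := by
          refine Finset.sum_le_sum fun n hn => ?_
          rw [Set.indicator_of_mem]
          · simp
          have hn' : (n : ℝ) < -Real.log R.toReal := Nat.lt_ceil.1 (Finset.mem_range.1 hn)
          show R < _
          refine (ENNReal.lt_ofReal_iff_toReal_lt (ne_top_of_le_ne_top ENNReal.one_ne_top hR1)).2 ?_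
          rcases eq_or_lt_of_le (ENNReal.toReal_nonneg (a := R)) with h0 | h0
          · rw [← h0]
            exact Real.exp_pos _
          · exact (Real.log_lt_iff_lt_exp h0).1 (by linarith)
      _ ≤ _ := ENNReal.sum_le_tsum _
  refine lt_of_le_of_lt (lintegral_mono hle) ?_
  rw [lintegral_tsum fun n => (measurable_one.indicator
    (measurableSet_lt (measurable_infRatio ν hXm 0) measurable_const)).aemeasurable]
  refine lt_of_le_of_lt (ENNReal.tsum_le_tsum fun n => le_trans (le_of_eq (lintegral_indicator_one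
    (measurableSet_lt (measurable_infRatio ν hXm 0) measurable_const)))
    (measure_infRatio_lt_le ν hXm 0 _)) ?_
  simp only [ENNReal.tsum_mul_left]
  refine ENNReal.mul_lt_top (by simp) (ENNReal.mul_lt_top (by simp) ?_)
  have hs : Summable fun n : ℕ => Real.exp (-(n : ℝ) + 1) := by
    simp only [Real.exp_add]
    exact Real.summable_exp_neg_nat.mul_right _
  rw [← ENNReal.ofReal_tsum_of_nonneg (fun n => (Real.exp_pos _).le) hs]
  exact ENNReal.ofReal_lt_top

end

end Vale.Agent.P114.Meas
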