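import Mathlib

/-!
# P114: the shift on the sequence space with a product measure

Measure preservation, and the zero-one law for sets which the shift maps into themselves.
-/

open MeasureTheory ProbabilityTheory Set Filter
open scoped ENNReal

namespace Vale.Agent.P114.Meas

noncomputable section

variable {ι : Type*} [MeasurableSpace ι] (ν : Measure ι) [IsProbabilityMeasure ν]

/-- The shift on sequences. -/
def shift (ω : ℕ → ι) : ℕ → ι := fun n => ω (n + 1)

theorem measurable_shift : Measurable (shift : (ℕ → ι) → ℕ → ι) := by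
  unfold shift
  fun_prop

/-- The product measure on sequences. -/
def seqMeasure : Measure (ℕ → ι) := Measure.infinitePi fun _ => ν

instance : IsProbabilityMeasure (seqMeasure ν) := by
  unfold seqMeasure
  infer_instance

theorem measurePreserving_shift :
    MeasurePreserving (shift : (ℕ → ι) → ℕ → ι) (seqMeasure ν) (seqMeasure ν) :=
  ⟨measurable_shift,
    Measure.map_infinitePi_infinitePi_of_inj (P := fun _ : ℕ => ν) (f := fun n => n + 1)
      fun _ _ h => Nat.succ_injective h⟩

omit [MeasurableSpace ι] in
theorem iterate_shift (k : ℕ) (ω : ℕ → ι) : shift^[k] ω = fun n => ω (n + k) := by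
  induction k generalizing ω with
  | zero => rfl
  | succ k ih =>
    rw [Function.iterate_succ_apply, ih]
    funext n
    show ω (n + k + 1) = ω (n + (k + 1))
    rw [add_assoc]

/-- A measurable set mapped into itself by the shift has measure zero or one. -/
theorem measure_zero_or_one {A : Set (ℕ → ι)} (hA : MeasurableSet A)
    (hinv : ∀ ω ∈ A, shift ω ∈ A) : seqMeasure ν A = 0 ∨ seqMeasure ν A = 1 := by
  set s : ℕ → MeasurableSpace (ℕ → ι) := fun i =>
    MeasurableSpace.comap (fun ω => ω i) inferInstance with hs
  have h_le : ∀ i, s i ≤ (inferInstance : MeasurableSpace (ℕ → ι)) := fun i => (measurable_pi_apply i).comap_le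
  have hind : iIndep s (seqMeasure ν) :=
    (iIndepFun_infinitePi (Ω := fun _ : ℕ => ι) (P := fun _ : ℕ => ν) (X := fun _ => id) fun _ => measurable_id).iIndep
  set B : Set (ℕ → ι) := ⋂ n, ⋃ k, shift^[n + k] ⁻¹' A with hB
  have hBtail : MeasurableSet[limsup s atTop] B := by
    rw [limsup_eq_iInf_iSup_of_nat, MeasurableSpace.measurableSet_iInf]
    intro n
    have hmeas : ∀ m, n ≤ m → MeasurableSet[⨆ i ≥ n, s i] (shift^[m] ⁻¹' A) := by
      intro m hm
      have hmap : Measurable[⨆ i ≥ n, s i] (shift^[m] : (ℕ → ι) → ℕ → ι) := by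
        refine (@measurable_pi_iff _ _ _ (⨆ i ≥ n, s i) _ _).2 fun j => ?_
        rw [measurable_iff_comap_le]
        refine le_trans (le_of_eq ?_) (le_iSup₂ (f := fun i (_ : i ≥ n) => s i) (j + m) (by omega))
        simp only [hs, iterate_shift]
      exact hmap hA
    have hBn : B = ⋂ j, ⋃ k, shift^[n + j + k] ⁻¹' A := by
      ext ω
      simp only [hB, mem_iInter, mem_iUnion, mem_preimage]
      constructor
      · exact fun h j => h (n + j)
      · intro h j
        obtain ⟨k, hk⟩ := h j
        exact ⟨n + k, by rwa [show j + (n + k) = n + j + k by omega]⟩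
    rw [hBn]
    exact MeasurableSet.iInter fun j => MeasurableSet.iUnion fun k => hmeas _ (by omega)
  have h01 := measure_zero_or_one_of_measurableSet_limsup_atTop h_le hind hBtail
  have hAe : ∀ k, (shift^[k] ⁻¹' A : Set (ℕ → ι)) =ᵐ[seqMeasure ν] A := by
    intro k
    refine (ae_eq_of_subset_of_measure_ge ?_ ?_ hA.nullMeasurableSet (measure_ne_top _ _)).symm
    · intro ω hω
      induction k with
      | zero => exact hω
      | succ k ih =>
        show shift^[k + 1] ω ∈ A
        rw [Function.iterate_succ_apply']
        exact hinv _ ih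
    · exact le_of_eq
        (((measurePreserving_shift ν).iterate k).measure_preimage hA.nullMeasurableSet)
  have hBA : B =ᵐ[seqMeasure ν] A := by
    have hall : ∀ᵐ ω ∂seqMeasure ν, ∀ k, shift^[k] ω ∈ A ↔ ω ∈ A :=
      ae_all_iff.2 fun k => (hAe k).mem_iff
    refine eventuallyEq_set.2 ?_
    filter_upwards [hall] with ω hω
    simp only [hB, mem_iInter, mem_iUnion, mem_preimage, hω]
    simp
  rwa [measure_congr hBA] at h01

end

end Vale.Agent.P114.Meas
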