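import Vale.Agent.P114.Meas.Coding
import Vale.Agent.P114.Meas.Hopf

/-!
# P114: the upper bound by the entropy of the level-`N` maps

For every `N ≥ 1` and every `s` with `blockEntropy N < s * N * expo` there is a set of positive
measure and dimension at most `s`. No independence is used, only invariance of the product measure.
-/

open MeasureTheory ProbabilityTheory Set Filter Metric
open scoped ENNReal NNReal Topology

namespace Vale.Agent.P114.Meas

noncomputable section

variable {ι : Type*} (r t : ι → ℝ)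

/-- The map of the first `n` letters, as slope and translation. -/
def blockMap (n : ℕ) (ω : ℕ → ι) : ℝ × ℝ := (slope r ω n, trans r t ω n)

/-- Composition of affine maps. -/
def mapComp (g g' : ℝ × ℝ) : ℝ × ℝ := (g.1 * g'.1, g.2 + g.1 * g'.2)

theorem blockMap_add (a b : ℕ) (ω : ℕ → ι) :
    blockMap r t (a + b) ω = mapComp (blockMap r t a ω) (blockMap r t b (shift^[a] ω)) := by
  have hsl : ∀ c, slope r ω (a + c) = slope r ω a * slope r (shift^[a] ω) c := fun c => by
    simp only [slope, Finset.prod_range_add, iterate_shift]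
    exact congrArg _ (Finset.prod_congr rfl fun i _ => by rw [add_comm a i])
  refine Prod.ext (hsl b) ?_
  show trans r t ω (a + b) = trans r t ω a + slope r ω a * trans r t (shift^[a] ω) b
  simp only [trans, Finset.sum_range_add, Finset.mul_sum, hsl]
  refine congrArg₂ (· + ·) rfl (Finset.sum_congr rfl fun j _ => ?_)
  simp only [iterate_shift, add_comm a, mul_assoc]

variable [MeasurableSpace ι] (ν : Measure ι)

/-- The probability of a level-`n` map. -/
def mapProb (n : ℕ) (g : ℝ × ℝ) : ℝ := (seqMeasure ν).real (blockMap r t n ⁻¹' {g})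

/-- The entropy, in nats, of the level-`n` map. -/
def blockEntropy (n : ℕ) : ℝ :=
  ∫ ω, -Real.log (mapProb r t ν n (blockMap r t n ω)) ∂seqMeasure ν

variable [Fintype ι]

/-- The values of the level-`n` map. -/
def mapValues (n : ℕ) [Nonempty ι] : Finset (ℝ × ℝ) :=
  (Finset.univ : Finset (Fin n → ι)).image fun w =>
    blockMap r t n fun j => if h : j < n then w ⟨j, h⟩ else Classical.arbitrary ι

omit [MeasurableSpace ι] in
theorem blockMap_mem [Nonempty ι] (n : ℕ) (ω : ℕ → ι) : blockMap r t n ω ∈ mapValues r t n := by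
  refine Finset.mem_image.2 ⟨fun j => ω j, Finset.mem_univ _, ?_⟩
  have hsl : ∀ k ≤ n, slope r (fun j => if h : j < n then ω j else Classical.arbitrary ι) k =
      slope r ω k := fun k hk => Finset.prod_congr rfl fun i hi => by
    simp only [dif_pos (lt_of_lt_of_le (Finset.mem_range.1 hi) hk)]
  refine Prod.ext (hsl n le_rfl) ?_
  show trans r t (fun j => if h : j < n then ω j else Classical.arbitrary ι) n = trans r t ω n
  refine Finset.sum_congr rfl fun j hj => ?_
  have hj' := Finset.mem_range.1 hj
  simp only [hsl j hj'.le, dif_pos hj']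

variable [MeasurableSingletonClass ι]

theorem measurable_blockMap (n : ℕ) : Measurable (blockMap r t n) :=
  (measurable_slope (r := r) n).prodMk (measurable_trans (r := r) t n)

variable [IsProbabilityMeasure ν]

theorem sum_mapProb [Nonempty ι] (n : ℕ) : ∑ g ∈ mapValues r t n, mapProb r t ν n g = 1 := by
  simp only [mapProb]
  rw [sum_measureReal_preimage_singleton _ (fun g _ => measurable_blockMap r t n (measurableSet_singleton g))
    (fun _ _ => measure_ne_top _ _)]
  rw [show blockMap r t n ⁻¹' (mapValues r t n : Set (ℝ × ℝ)) = univ from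
    eq_univ_of_forall fun ω => blockMap_mem r t n ω]
  simp

/-- The map of a tuple of blocks. -/
def foldMaps : ∀ k : ℕ, (Fin k → ℝ × ℝ) → ℝ × ℝ
  | 0, _ => (1, 0)
  | k + 1, a => mapComp (a 0) (foldMaps k fun j => a j.succ)

omit [MeasurableSpace ι] [MeasurableSingletonClass ι] [Fintype ι] in
theorem foldMaps_blocks (N : ℕ) : ∀ (k : ℕ) (ω : ℕ → ι),
    foldMaps k (fun j => blockMap r t N (shift^[N * (j : ℕ)] ω)) = blockMap r t (N * k) ω
  | 0, ω => by simp [foldMaps, blockMap, slope, trans]
  | k + 1, ω => by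
    have e : N * (k + 1) = N + N * k := by ring
    rw [e, blockMap_add, ← foldMaps_blocks N k (shift^[N] ω), foldMaps]
    refine congrArg₂ mapComp (by simp) (congrArg _ (funext fun j => ?_))
    rw [← Function.iterate_add_apply, Fin.val_succ]
    congr 2

variable {r} (hr : ∀ i, r i ≠ 0) (hr1 : ∀ i, |r i| < 1)
include hr1

omit [MeasurableSpace ι] [MeasurableSingletonClass ι] in
/-- A bound on the coding map. -/
theorem exists_coding_bound : ∃ R : ℝ, 0 < R ∧ ∀ ω, |coding r t ω| ≤ R := by
  obtain ⟨c, hc0, hc1, hc⟩ := exists_ratio_bound hr1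
  have hs := (summable_geometric_of_lt_one hc0 hc1).mul_right (∑ i, |t i|)
  refine ⟨(∑' n : ℕ, c ^ n * ∑ i, |t i|) + 1, add_pos_of_nonneg_of_pos
    (tsum_nonneg fun n => by positivity) one_pos, fun ω => ?_⟩
  have h := tsum_of_norm_bounded hs.hasSum (f := fun n => slope r ω n * t (ω n)) fun n => by
    rw [Real.norm_eq_abs, abs_mul, slope, Finset.abs_prod]
    refine mul_le_mul ?_ (Finset.single_le_sum (f := fun i => |t i|) (fun i _ => abs_nonneg _)
      (Finset.mem_univ _)) (abs_nonneg _) (pow_nonneg hc0 _)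
    calc ∏ i ∈ Finset.range n, |r (ω i)| ≤ ∏ _i ∈ Finset.range n, c :=
          Finset.prod_le_prod (fun i _ => abs_nonneg _) fun i _ => hc _
      _ = c ^ n := by simp
  rw [Real.norm_eq_abs] at h
  calc |coding r t ω| ≤ _ := h
    _ ≤ _ := by linarith

omit [MeasurableSpace ι] [MeasurableSingletonClass ι] in
theorem coding_iterate : ∀ (n : ℕ) (ω : ℕ → ι),
    coding r t ω = slope r ω n * coding r t (shift^[n] ω) + trans r t ω n
  | 0, ω => by simp [slope, trans]
  | n + 1, ω => by
    rw [coding_eq t hr1 ω, coding_iterate n (shift ω), slope_succ, ← Function.iterate_succ_apply,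
      show trans r t ω (n + 1) = r (ω 0) * trans r t (shift ω) n + t (ω 0) by
        simp only [trans, Finset.sum_range_succ', slope_succ, Finset.mul_sum, mul_assoc]
        simp [slope, shift]]
    ring

include hr

/-- A set of positive measure and dimension at most `s`. -/
theorem exists_pos_dimH_le (hν : ∀ i, ν {i} ≠ 0) {N : ℕ} (hN : 1 ≤ N) {s : ℝ} (hs0 : 0 < s)
    (hs : blockEntropy r t ν N < s * ∫ ω, -Real.log |slope r ω N| ∂seqMeasure ν) :
    ∃ E : Set ℝ, MeasurableSet E ∧ law ν (coding r t) E ≠ 0 ∧ dimH E ≤ ENNReal.ofReal s := by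
  classical
  haveI : Nonempty ι := by
    by_contra h
    rw [not_nonempty_iff] at h
    have : (univ : Set (ℕ → ι)) = ∅ := eq_empty_of_forall_notMem fun ω => (h.false (ω 0)).elim
    simpa [this] using measure_univ (μ := seqMeasure ν)
  set S := mapValues r t N with hS
  set F : (ℕ → ι) → ℝ := fun ω =>
    Real.log (mapProb r t ν N (blockMap r t N ω)) - s * Real.log |slope r ω N| with hF
  have hint : ∀ φ : ℝ × ℝ → ℝ, Measurable (fun ω => φ (blockMap r t N ω)) ∧
      Integrable (fun ω => φ (blockMap r t N ω)) (seqMeasure ν) := by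
    intro φ
    have hm : Measurable fun ω => φ (blockMap r t N ω) := by
      have h : Measurable (fun g : S => φ g) := measurable_of_countable _
      exact h.comp ((measurable_blockMap r t N).subtype_mk (h := fun ω => blockMap_mem r t N ω))
    exact ⟨hm, Integrable.of_bound hm.aestronglyMeasurable (∑ g ∈ S, |φ g|)
      (Eventually.of_forall fun ω => by
        rw [Real.norm_eq_abs]
        exact Finset.single_le_sum (f := fun g => |φ g|) (fun g _ => abs_nonneg _)
          (blockMap_mem r t N ω))⟩
  obtain ⟨hFm, hFi⟩ := hint fun g => Real.log (mapProb r t ν N g) - s * Real.log |g.1|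
  have hmean : 0 < ∫ ω, F ω ∂seqMeasure ν := by
    have h1 := (hint fun g => Real.log (mapProb r t ν N g)).2
    have h2 := (hint fun g => s * Real.log |g.1|).2
    have e : ∫ ω, F ω ∂seqMeasure ν =
        (∫ ω, Real.log (mapProb r t ν N (blockMap r t N ω)) ∂seqMeasure ν) -
          s * ∫ ω, Real.log |slope r ω N| ∂seqMeasure ν := by
      rw [← integral_const_mul, ← integral_sub (f := fun ω => Real.log (mapProb r t ν N (blockMap r t N ω)))
        (g := fun ω => s * Real.log |slope r ω N|) h1 h2]
    rw [blockEntropy, integral_neg, integral_neg] at hs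
    rw [e]
    linarith
  have hpos := exists_all_sums_nonneg ((measurePreserving_shift ν).iterate N) hFm hFi hmean
  have hprobpos : ∀ᵐ ω ∂seqMeasure ν, ∀ j,
      0 < mapProb r t ν N (blockMap r t N (shift^[N * j] ω)) := by
    refine ae_all_iff.2 fun j => ?_
    have h0 : ∀ᵐ ω ∂seqMeasure ν, 0 < mapProb r t ν N (blockMap r t N ω) := by
      rw [ae_iff]
      refine measure_mono_null (t := ⋃ g ∈ S.filter (fun g => mapProb r t ν N g = 0),
        blockMap r t N ⁻¹' {g}) (fun ω hω => mem_biUnion (Finset.mem_filter.2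
          ⟨blockMap_mem r t N ω, le_antisymm (not_lt.1 hω) measureReal_nonneg⟩) rfl)
        ((measure_biUnion_null_iff (Finset.countable_toSet _)).2 fun g hg => ?_)
      exact (measureReal_eq_zero_iff (measure_ne_top _ _)).1 (Finset.mem_filter.1 hg).2
    exact ((measurePreserving_shift ν).iterate (N * j)).quasiMeasurePreserving.ae h0
  obtain ⟨R, hR0, hR⟩ := exists_coding_bound t hr1
  set A : ∀ k : ℕ, Finset (Fin k → S) := fun k => Finset.univ.filter fun a =>
    |(foldMaps k fun j => (a j : ℝ × ℝ)).1| ^ s ≤ ∏ j, mapProb r t ν N (a j) with hA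
  set ctr : ∀ k : ℕ, (Fin k → S) → ℝ × ℝ := fun k a => foldMaps k fun j => (a j : ℝ × ℝ) with hctr
  set cov : ∀ k : ℕ, (Fin k → S) → Set ℝ := fun k a =>
    closedBall (ctr k a).2 (|(ctr k a).1| * R) with hcov
  set E : Set ℝ := ⋂ k, ⋃ a ∈ A k, cov k a with hE
  have hEm : MeasurableSet E :=
    MeasurableSet.iInter fun k => Finset.measurableSet_biUnion _ fun a _ => measurableSet_closedBall
  have hblocks : ∀ (ω : ℕ → ι) k,
      foldMaps k (fun j => blockMap r t N (shift^[N * (j : ℕ)] ω)) = blockMap r t (N * k) ω :=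
    fun ω k => foldMaps_blocks r t N k ω
  have hmem : ∀ᵐ ω ∂seqMeasure ν,
      (∀ n, 0 ≤ ∑ j ∈ Finset.range n, F ((shift^[N])^[j] ω)) → coding r t ω ∈ E := by
    filter_upwards [hprobpos] with ω hω hsum
    have hsl : ∀ k, |slope r ω (N * k)| =
        ∏ j ∈ Finset.range k, |slope r (shift^[N * j] ω) N| := by
      intro k
      induction k with
      | zero => simp [slope]
      | succ k ih =>
        rw [Finset.prod_range_succ, ← ih, ← abs_mul, mul_add, mul_one]
        exact congrArg _ (congrArg Prod.fst (blockMap_add r t (N * k) N ω))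
    refine mem_iInter.2 fun k => ?_
    set a : Fin k → S := fun j =>
      ⟨blockMap r t N (shift^[N * (j : ℕ)] ω), blockMap_mem r t N _⟩ with ha
    have hca : ctr k a = blockMap r t (N * k) ω := hblocks ω k
    have hne : ∀ j, 0 < |slope r (shift^[N * j] ω) N| := fun j =>
      abs_pos.2 (Finset.prod_ne_zero_iff.2 fun i _ => hr _)
    refine mem_biUnion (x := a) (Finset.mem_filter.2 ⟨Finset.mem_univ _, ?_⟩) ?_
    · have h := hsum k
      simp only [hF, Finset.sum_sub_distrib, ← Finset.mul_sum, ← Function.iterate_mul] at h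
      show |(ctr k a).1| ^ s ≤ ∏ j : Fin k, mapProb r t ν N (blockMap r t N (shift^[N * (j : ℕ)] ω))
      rw [hca]
      show |slope r ω (N * k)| ^ s ≤ _
      rw [hsl, Fin.prod_univ_eq_prod_range (fun j => mapProb r t ν N (blockMap r t N (shift^[N * j] ω))) k,
        Real.rpow_def_of_pos (Finset.prod_pos fun j _ => hne j),
        ← Real.exp_log (Finset.prod_pos fun j _ => hω j), Real.exp_le_exp,
        Real.log_prod fun j _ => (hne j).ne', Real.log_prod fun j _ => (hω j).ne']
      linarith
    · show dist (coding r t ω) (ctr k a).2 ≤ |(ctr k a).1| * R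
      rw [hca, Real.dist_eq, coding_iterate t hr1 (N * k) ω]
      show |slope r ω (N * k) * coding r t (shift^[N * k] ω) + trans r t ω (N * k) -
        trans r t ω (N * k)| ≤ |slope r ω (N * k)| * R
      rw [add_sub_cancel_right, abs_mul]
      exact mul_le_mul_of_nonneg_left (hR _) (abs_nonneg _)
  refine ⟨E, hEm, ?_, ?_⟩
  · rw [law, Measure.map_apply (measurable_coding t hr1) hEm]
    exact (lt_of_lt_of_le hpos (measure_mono_ae (by
      filter_upwards [hmem] with ω h1 h2 using h1 h2))).ne'
  obtain ⟨c, hc0, hc1, hc⟩ := exists_ratio_bound hr1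
  have hSsl : ∀ g ∈ S, |g.1| ≤ c := by
    intro g hg
    obtain ⟨w, -, rfl⟩ := Finset.mem_image.1 hg
    show |slope r _ N| ≤ c
    rw [slope, Finset.abs_prod]
    calc _ ≤ ∏ _i ∈ Finset.range N, c :=
          Finset.prod_le_prod (fun i _ => abs_nonneg _) fun i _ => hc _
      _ = c ^ N := by simp
      _ ≤ c := pow_le_of_le_one hc0 hc1.le (by omega)
  have hfold : ∀ k (a : Fin k → S), |(ctr k a).1| ≤ c ^ k := by
    intro k
    induction k with
    | zero => intro a; simp [hctr, foldMaps]
    | succ k ih =>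
      intro a
      show |(a 0 : ℝ × ℝ).1 * (ctr k fun j => a j.succ).1| ≤ c ^ (k + 1)
      rw [abs_mul, pow_succ']
      exact mul_le_mul (hSsl _ (a 0).2) (ih _) (abs_nonneg _) hc0
  have hH : μH[s] E ≤ ENNReal.ofReal ((2 * R) ^ s) := by
    refine (Measure.hausdorffMeasure_le_liminf_sum s E (l := atTop)
      (fun k : ℕ => ENNReal.ofReal (2 * R * c ^ k)) ?_ (fun k (a : A k) => cov k a.1) ?_ ?_).trans ?_
    · simpa using ENNReal.tendsto_ofReal
        ((tendsto_pow_atTop_nhds_zero_of_lt_one hc0 hc1).const_mul (2 * R))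
    · refine Eventually.of_forall fun k a => ?_
      show ediam (closedBall (ctr k a.1).2 (|(ctr k a.1).1| * R)) ≤ _
      rw [Real.closedBall_eq_Icc, Real.ediam_Icc]
      refine ENNReal.ofReal_le_ofReal ?_
      have := mul_le_mul_of_nonneg_right (hfold k a.1) hR0.le
      linarith
    · refine Eventually.of_forall fun k x hx => ?_
      obtain ⟨a, ha, hxa⟩ := mem_iUnion₂.1 (mem_iInter.1 hx k)
      exact mem_iUnion.2 ⟨⟨a, ha⟩, hxa⟩
    refine liminf_le_of_frequently_le' (Frequently.of_forall fun k => ?_)
    calc ∑ a : A k, ediam (cov k a.1) ^ s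
        ≤ ∑ a : A k, ENNReal.ofReal ((2 * R) ^ s) *
            ENNReal.ofReal (∏ j, mapProb r t ν N (a.1 j)) := by
          refine Finset.sum_le_sum fun a _ => ?_
          show ediam (closedBall (ctr k a.1).2 (|(ctr k a.1).1| * R)) ^ s ≤ _
          rw [Real.closedBall_eq_Icc, Real.ediam_Icc,
            ENNReal.ofReal_rpow_of_nonneg (by nlinarith [abs_nonneg (ctr k a.1).1]) hs0.le,
            ← ENNReal.ofReal_mul (by positivity)]
          refine ENNReal.ofReal_le_ofReal ?_
          rw [show (ctr k a.1).2 + |(ctr k a.1).1| * R - ((ctr k a.1).2 - |(ctr k a.1).1| * R) =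
            2 * R * |(ctr k a.1).1| by ring, Real.mul_rpow (by positivity) (abs_nonneg _)]
          exact mul_le_mul_of_nonneg_left (Finset.mem_filter.1 a.2).2 (by positivity)
      _ = ENNReal.ofReal ((2 * R) ^ s) *
            ∑ a ∈ A k, ENNReal.ofReal (∏ j, mapProb r t ν N (a j)) := by
          rw [← Finset.mul_sum, Finset.sum_coe_sort (A k)
            (fun a => ENNReal.ofReal (∏ j, mapProb r t ν N (a j)))]
      _ ≤ ENNReal.ofReal ((2 * R) ^ s) *
            ∑ a : Fin k → S, ENNReal.ofReal (∏ j, mapProb r t ν N (a j)) :=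
          mul_le_mul' le_rfl (Finset.sum_le_sum_of_subset (Finset.subset_univ _))
      _ = ENNReal.ofReal ((2 * R) ^ s) := by
          rw [← ENNReal.ofReal_sum_of_nonneg (s := Finset.univ)
              (f := fun a : Fin k → S => ∏ j, mapProb r t ν N (a j))
              (fun a _ => Finset.prod_nonneg fun j _ => measureReal_nonneg),
            ← Fintype.prod_sum fun (_ : Fin k) (g : S) => mapProb r t ν N g]
          rw [Finset.sum_coe_sort S (mapProb r t ν N), sum_mapProb]
          simp
  exact dimH_le_of_hausdorffMeasure_ne_top (d := s.toNNReal)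
    (by rw [Real.coe_toNNReal _ hs0.le]; exact ne_top_of_le_ne_top ENNReal.ofReal_ne_top hH)

end

end Vale.Agent.P114.Meas
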